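import Vale.Agent.P280.H587.CorA

/-! P280, torus case: fixed points other than an isolated source have a negative weight; the case
of fixed points with a homothety. -/

namespace Vale.Agent.P280.H587

open DirectSum Vale.Agent.P280.T

section
variable {M : Type} [AddCommGroup M] [DecidableEq M]
variable {R : Type} [CommRing R] [Algebra ℂ R] {𝒜 : ℕ × M → Submodule ℂ R} [GradedAlgebra 𝒜]

/-- If there are no tangent vectors of negative weight at a point fixed by `l`, it has the lowest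
slope. -/
theorem low_of_nonneg (hX : IsTorusManifold 𝒜) {l : M →+ ℤ} {γ : ℤ} {x : R →ₐ[ℂ] ℂ}
    (hx0 : ¬ IsVertex 𝒜 x) (hx : ∀ d m, ∀ h ∈ 𝒜 (d, m), x h ≠ 0 → l m = d • γ)
    (hnn : ∀ k : ℤ, k < 0 → ∀ ξ : R →ₗ[ℂ] ℂ, IsTangent x ξ →
      (∀ d m, ∀ h ∈ 𝒜 (d, m), ξ h ≠ 0 → l m = d • γ + k) → ∀ d m, ∀ h ∈ 𝒜 (d, m), ξ h = 0) :
    ∀ d m, ∀ h ∈ 𝒜 (d, m), h ≠ 0 → d • γ ≤ l m := by
  have := H127.noeth hX
  have := hX.domain
  have hfix := H127.fix_iff.2 hx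
  obtain ⟨n, u, wt, G, hn⟩ := H127.exists_params_T hX hx0 hfix
  have hwt : ∀ i, 0 ≤ wt i := by
    intro i
    by_contra hi
    obtain ⟨v, hv, hw, -, d, m, h, hh, hne⟩ := H127.exists_weight_vector hX hfix G hn i
    exact hne (hnn (wt i) (not_le.1 hi) v hv hw d m h hh)
  intro d m h hh hne
  by_contra hlt
  apply hne
  have h1 := H127.source hfix G (C := {k | k < 0}) (by simp)
    (fun w hw i => by
      have := hwt i
      simp only [Set.mem_setOf_eq] at hw ⊢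
      omega) (w := l m - d • γ) (by simp only [Set.mem_setOf_eq]; omega)
  have h2 : h ∈ coarse 𝒜 (H127.rl l γ) (l m - d • γ) := mem_coarse hh (H127.rl_apply l γ d m)
  rw [h1] at h2
  exact (Submodule.mem_bot ℂ).1 h2

/-- The same for a fixed point of the torus, in terms of its tangent weights. -/
theorem low_of_fixed (hX : IsTorusManifold 𝒜) {l : M →+ ℤ} {x : R →ₐ[ℂ] ℂ} {ν : M}
    (hx0 : ¬ IsVertex 𝒜 x) (hx : IsFixed 𝒜 x ν)
    (hnn : ∀ χ, TangentWeight 𝒜 x ν χ → 0 ≤ l χ) :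
    ∀ d m, ∀ h ∈ 𝒜 (d, m), h ≠ 0 → d • l ν ≤ l m := by
  refine low_of_nonneg hX hx0 (fun d m h hh hne => ?_) ?_
  · rw [hx d m h hh hne, map_nsmul]
  · intro k hk ξ hξ hw d m h hh
    by_contra hne
    obtain ⟨v, hv, hvw, hvh⟩ := H587.exists_component hx hξ (m - d • ν)
    have h1 : l (m - d • ν) = k := by
      rw [map_sub, map_nsmul, hw d m h hh hne]
      abel
    have h2 : m - d • ν ≠ 0 := by
      intro h0
      rw [h0, map_zero] at h1
      omega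
    have h3 : TangentWeight 𝒜 x ν (m - d • ν) := by
      refine H587.tangentWeight_of_ne hx h2 hv hvw d m hh ?_
      rw [hvh d m h hh (by abel)]
      exact hne
    have h4 := hnn _ h3
    omega

/-- A fixed point over another point than the isolated source `p` of `l` has a negative tangent
weight. -/
theorem exists_neg_of_source (hX : IsTorusManifold 𝒜) {l : M →+ ℤ} {p : R →ₐ[ℂ] ℂ} {μ : M}
    {a : ℤ} (hp : IsSource 𝒜 l p μ a) {x : R →ₐ[ℂ] ℂ} {ν : M} (hx0 : ¬ IsVertex 𝒜 x)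
    (hx : IsFixed 𝒜 x ν) (hs : ¬ SamePoint 𝒜 p x) : ∃ χ, TangentWeight 𝒜 x ν χ ∧ l χ < 0 := by
  by_contra hcon
  push Not at hcon
  have hlx := low_of_fixed hX hx0 hx hcon
  have hX' : IsTorusManifold (co 𝒜 l) := isTorusManifold_co hX
  obtain ⟨f, hf, hpf⟩ := H939.source_s1 hX' (isSource_co hp)
  obtain ⟨h1, h2⟩ := H939.source_s2 hX' (isSource_co hp)
  have hpf' : p f ≠ 0 := by rw [hpf]; exact one_ne_zero
  have hf0 : f ≠ 0 := by
    rintro rfl
    exact hpf' (map_zero _)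
  have hdata : H644.SourceData (co 𝒜 l) (l μ) f := ⟨hf, hf0, h1, h2 f hf hpf'⟩
  have hsl : l μ = l ν := by
    apply le_antisymm
    · obtain ⟨g, hg, hgx⟩ := exists_deg_one_ne hX.gen hx0 hx
      have := h1 1 (l ν) g (mem_co hg) (fun h => hgx (by rw [h, map_zero]))
      rwa [one_smul] at this
    · obtain ⟨g, hg, hgp⟩ := exists_deg_one_ne hX.gen hp.1 hp.2.1
      have := hlx 1 μ g hg (fun h => hgp (by rw [h, map_zero]))
      rwa [one_smul] at this
  have hxf : IsFixed (co 𝒜 l) x (l μ) := by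
    rw [hsl]
    exact isFixed_co hx
  obtain ⟨c, hc, hcx⟩ := hdata.same (fun h => hp.1 (isVertex_co.1 h)) (isFixed_co hp.2.1)
    (fun h => hx0 (isVertex_co.1 h)) hxf
  exact hs ⟨c, hc, fun d m h hh => hcx d (l m) h (mem_co hh)⟩

/-- The weights at a fixed point where `l` is a homothety are extremal. -/
theorem isExtremal_of_homothety {x : R →ₐ[ℂ] ℂ} {ν χ : M} (hx0 : ¬ IsVertex 𝒜 x)
    (hx : IsFixed 𝒜 x ν) {l : M →+ ℤ} {a : ℤ} (ha : 0 < a)
    (hl : ∀ ω, TangentWeight 𝒜 x ν ω → l ω = a) (hχ : TangentWeight 𝒜 x ν χ) :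
    IsExtremal 𝒜 χ := by
  refine ⟨l, x, ν, hx0, hx, fun ω hω => ?_⟩
  rw [hl ω hω, hl χ hχ]
  exact ⟨ha, le_rfl⟩

end

/-- There are fixed points. -/
theorem exists_fixed {r : ℕ} {R : Type} [CommRing R] [Algebra ℂ R]
    {𝒜 : ℕ × (Fin r → ℤ) → Submodule ℂ R} [GradedAlgebra 𝒜] (hX : IsTorusManifold 𝒜) :
    ∃ (x : R →ₐ[ℂ] ℂ) (ν : Fin r → ℤ), ¬ IsVertex 𝒜 x ∧ IsFixed 𝒜 x ν := by
  obtain ⟨γ, x, hx0, -, hx1, -, ν, hν, -⟩ := exists_lowest hX (lexHom 0) (I := ⊥)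
    (by
      intro x hx i
      rw [Ideal.mem_bot] at hx
      rw [hx, decompose_zero, DirectSum.zero_apply]
      exact Submodule.zero_mem _)
    (by
      obtain ⟨z, hz⟩ := hX.nonempty
      refine ⟨z, ?_, hz⟩
      intro x hx
      rw [Ideal.mem_bot] at hx
      rw [hx, map_zero])
  refine ⟨x, ν, hx0, fun d m h hh hne => ?_⟩
  apply lexHom_injective 0
  rw [map_nsmul, hν]
  exact hx1 d m h hh hne

/-- **Corollary C.** At each fixed point of the torus some one-parameter group acts on the tangent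
space by homotheties (with positive weight): then `X` is homogeneous. -/
theorem corollaryC {r : ℕ} {R : Type} [CommRing R] [Algebra ℂ R]
    {𝒜 : ℕ × (Fin r → ℤ) → Submodule ℂ R} [GradedAlgebra 𝒜] (hI : TheoremI)
    (hX : IsTorusManifold 𝒜) (hN : NefOnRationalCurves 𝒜)
    (hC : ∀ x ν, ¬ IsVertex 𝒜 x → IsFixed 𝒜 x ν → ∃ (l : (Fin r → ℤ) →+ ℤ) (a : ℤ), 0 < a ∧
      ∀ χ, TangentWeight 𝒜 x ν χ → l χ = a) : IsHomogeneousManifold 𝒜 := by
  obtain ⟨p, μ, hp0, hp⟩ := exists_fixed hX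
  obtain ⟨l, a, ha, hl⟩ := hC p μ hp0 hp
  have hext : ∀ x ν χ, ¬ IsVertex 𝒜 x → IsFixed 𝒜 x ν → TangentWeight 𝒜 x ν χ →
      IsExtremal 𝒜 χ := by
    intro x ν χ hx0 hx hχ
    obtain ⟨l', a', ha', hl'⟩ := hC x ν hx0 hx
    exact isExtremal_of_homothety hx0 hx ha' hl' hχ
  refine theoremII hI hX hN hp0 hp (fun χ hχ => hext p μ χ hp0 hp hχ) l ?_
  intro x ν hx0 hx hs
  have hsrc : IsSource 𝒜 l p μ a := ⟨hp0, hp, fun ω hω => by
    rw [hl ω hω]
    exact ⟨ha, le_rfl⟩⟩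
  obtain ⟨χ, hχ, hneg⟩ := exists_neg_of_source hX hsrc hx0 hx hs
  exact ⟨χ, hχ, hext x ν χ hx0 hx hχ, hneg⟩

end Vale.Agent.P280.H587
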