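import Vale.Agent.P280.H587.Base

/-! P280, torus case: tangent vectors of extremal weight are values of vector fields (from
Theorem I for one-parameter groups). -/

namespace Vale.Agent.P280.H587

open DirectSum Vale.Agent.P280.T

/-- Theorem I, for one-parameter groups. -/
def TheoremI : Prop :=
  ∀ (R : Type) [CommRing R] [Algebra ℂ R] (𝒜 : ℕ × ℤ → Submodule ℂ R) [GradedAlgebra 𝒜],
    IsTorusManifold 𝒜 → NefOnRationalCurves 𝒜 → ∀ (p : R →ₐ[ℂ] ℂ) (μ a : ℤ), 0 < a →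
    IsSource 𝒜 (AddMonoidHom.id ℤ) p μ a → ∀ (x : R →ₐ[ℂ] ℂ) (ν : ℤ), ¬ IsVertex 𝒜 x →
    IsFixed 𝒜 x ν → (∀ χ, TangentWeight 𝒜 x ν χ → χ ≤ a) ∧
      ∀ v, IsTangent x v → HasWeight 𝒜 ν a v →
        ∃ D : Derivation ℂ R R, (∀ d m, ∀ h ∈ 𝒜 (d, m), D h ∈ 𝒜 (d, m - a)) ∧
          ∀ h, x (D h) = v h

variable {M : Type} [AddCommGroup M] [DecidableEq M]
variable {R : Type} [CommRing R] [Algebra ℂ R] {𝒜 : ℕ × M → Submodule ℂ R} [GradedAlgebra 𝒜]

/-- A fixed point sees only the component of weight `d • ν`. -/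
theorem fixed_eq_component {l : M →+ ℤ} {x : R →ₐ[ℂ] ℂ} {ν : M} (hx : IsFixed 𝒜 x ν) {d : ℕ}
    {k : ℤ} {y : R} (hy : y ∈ co 𝒜 l (d, k)) : x y = x (decompose 𝒜 y (d, d • ν) : R) := by
  refine co_induction (P := fun y => x y = x (decompose 𝒜 y (d, d • ν) : R)) (by simp) ?_ ?_ hy
  · intro a b ha hb
    rw [decompose_add, DirectSum.add_apply, Submodule.coe_add, map_add, map_add, ha, hb]
  · intro m _ h hh
    by_cases hm : m = d • ν
    · subst hm
      rw [decompose_of_mem_same 𝒜 hh]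
    · rw [decompose_of_mem_ne 𝒜 hh (fun h1 => hm (congrArg Prod.snd h1)), map_zero]
      by_contra hne
      exact hm (hx d m h hh hne)

/-- Tangent vectors of extremal weight at fixed points are values of vector fields. -/
theorem field_of_extremal (hI : TheoremI) (hX : IsTorusManifold 𝒜) (hN : NefOnRationalCurves 𝒜)
    {χ : M} {l : M →+ ℤ} {p : R →ₐ[ℂ] ℂ} {μ : M} (hs : IsSource 𝒜 l p μ (l χ)) (ha : 0 < l χ)
    {x : R →ₐ[ℂ] ℂ} {ν : M} (hx0 : ¬ IsVertex 𝒜 x) (hx : IsFixed 𝒜 x ν) {v : R →ₗ[ℂ] ℂ}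
    (hv : IsTangent x v) (hw : HasWeight 𝒜 ν χ v) :
    ∃ D : Derivation ℂ R R, (∀ d m, ∀ h ∈ 𝒜 (d, m), D h ∈ 𝒜 (d, m - χ)) ∧
      ∀ h, x (D h) = v h := by
  obtain ⟨D₀, h1, h2⟩ := (hI R (co 𝒜 l) (isTorusManifold_co hX) (nef_co hN) p (l μ) (l χ) ha
    (isSource_co hs) x (l ν) (fun h => hx0 (isVertex_co.1 h)) (isFixed_co hx)).2 v hv
    (hasWeight_co hw)
  obtain ⟨D, h3, h4⟩ := exists_field_component (𝒜 := 𝒜) D₀ χ
  refine ⟨D, h3, ?_⟩
  have key : x.toLinearMap.comp D.toLinearMap = v := by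
    apply linearMap_ext_graded 𝒜
    rintro ⟨d, m⟩ h hh
    change x (D h) = v h
    by_cases hm : m = d • ν + χ
    · rw [h4 d m h hh, ← h2 h, fixed_eq_component hx (h1 d (l m) h (mem_co hh))]
      have : m - χ = d • ν := by rw [hm]; abel
      rw [this]
    · have e1 : x (D h) = 0 := by
        by_contra hne
        apply hm
        have := hx d (m - χ) (D h) (h3 d m h hh) hne
        rw [← this]
        abel
      have e2 : v h = 0 := by
        by_contra hne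
        exact hm (hw d m h hh hne)
      rw [e1, e2]
  intro h
  exact LinearMap.congr_fun key h

/-- All the weights at all the fixed points are at most the largest weight at a source. -/
theorem weight_le (hI : TheoremI) (hX : IsTorusManifold 𝒜) (hN : NefOnRationalCurves 𝒜)
    {l : M →+ ℤ} {p : R →ₐ[ℂ] ℂ} {μ : M} {a : ℤ} (hs : IsSource 𝒜 l p μ a) (ha : 0 < a)
    {x : R →ₐ[ℂ] ℂ} {ν : M} (hx0 : ¬ IsVertex 𝒜 x) (hx : IsFixed 𝒜 x ν) {χ : M}
    (hχ : TangentWeight 𝒜 x ν χ) : l χ ≤ a := by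
  by_cases h0 : l χ = 0
  · rw [h0]; exact ha.le
  · obtain ⟨v, hv, hw, hc⟩ := hχ
    refine (hI R (co 𝒜 l) (isTorusManifold_co hX) (nef_co hN) p (l μ) a ha
      (isSource_co hs) x (l ν) (fun h => hx0 (isVertex_co.1 h)) (isFixed_co hx)).1 (l χ) ?_
    obtain ⟨d, m, h, hh, hne⟩ := hc 0
    rw [zero_mul, zero_mul] at hne
    exact tangentWeight_of_ne (isFixed_co hx) h0 hv (hasWeight_co hw) d (l m) (mem_co hh) hne

end Vale.Agent.P280.H587
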