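import Vale.Agent.P280.H587.Ext
import Vale.Agent.P280.T.Tools2
import Vale.Agent.P280.H93.Const
import Vale.Agent.P280.H127.Wts

/-! P280, torus case: Theorem II, the assembly. -/

namespace Vale.Agent.P280.H587

open DirectSum Vale.Agent.P280.T Vale.Agent.P280.H93

variable {M : Type} [AddCommGroup M] [DecidableEq M]
variable {R : Type} [CommRing R] [Algebra ℂ R] {𝒜 : ℕ × M → Submodule ℂ R} [GradedAlgebra 𝒜]

/-- The Euler derivation. -/
theorem exists_euler (𝒜 : ℕ × M → Submodule ℂ R) [GradedAlgebra 𝒜] :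
    ∃ E : Derivation ℂ R R, ∀ d m, ∀ h ∈ 𝒜 (d, m), E h = (d : ℂ) • h := by
  obtain ⟨F, hF⟩ := exists_linearMap 𝒜 (fun i : ℕ × M => (i.1 : ℂ) • (LinearMap.id : R →ₗ[ℂ] R))
  have hF' : ∀ d m, ∀ h ∈ 𝒜 (d, m), F h = (d : ℂ) • h := fun d m h hh => hF (d, m) h hh
  have hL : ∀ x y : R, F (x * y) = x • F y + y • F x := by
    intro a b
    let F1 : R →ₗ[ℂ] R →ₗ[ℂ] R := (LinearMap.mul ℂ R).compr₂ F
    let G : R →ₗ[ℂ] R →ₗ[ℂ] R :=
      (LinearMap.mul ℂ R).compl₁₂ LinearMap.id F +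
        ((LinearMap.mul ℂ R).compl₁₂ LinearMap.id F).flip
    have hFG : F1 a b = G a b := by
      refine bilin_ext 𝒜 (F := F1) (G := G) ?_ a b
      rintro ⟨d, m⟩ ⟨d', m'⟩ x hx y hy
      change F (x * y) = x * F y + y * F x
      have hxy : x * y ∈ 𝒜 (d + d', m + m') := SetLike.mul_mem_graded hx hy
      rw [hF' _ _ _ hxy, hF' _ _ _ hx, hF' _ _ _ hy, mul_smul_comm, mul_smul_comm, mul_comm y x,
        ← add_smul, Nat.cast_add, add_comm]
    exact hFG
  exact ⟨Derivation.mk' F hL, hF'⟩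

/-- A weight vector which does not give a weight of `T_p X` is the value of a field. -/
theorem euler_of_not {p : R →ₐ[ℂ] ℂ} {μ χ : M} {v : R →ₗ[ℂ] ℂ} (hv : IsTangent p v)
    (hw : HasWeight 𝒜 μ χ v) (hn : ¬ TangentWeight 𝒜 p μ χ) {E : Derivation ℂ R R}
    (hE : ∀ d m, ∀ h ∈ 𝒜 (d, m), E h = (d : ℂ) • h) : ∃ c : ℂ, ∀ h, v h = c * p (E h) := by
  by_contra hcon
  push Not at hcon
  apply hn
  refine ⟨v, hv, hw, fun c => ?_⟩
  by_contra hc
  push Not at hc
  obtain ⟨h, hh⟩ := hcon c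
  apply hh
  have key : v = c • (p.toLinearMap.comp E.toLinearMap) := by
    apply linearMap_ext_graded 𝒜
    rintro ⟨d, m⟩ x hx
    rw [hc d m x hx]
    change _ = c * p (E x)
    rw [hE d m x hx, map_smul, smul_eq_mul, mul_assoc]
  rw [key]
  rfl

theorem isHField_euler {E : Derivation ℂ R R} (hE : ∀ d m, ∀ h ∈ 𝒜 (d, m), E h = (d : ℂ) • h)
    (c : ℂ) : IsHField 𝒜 0 (c • E) := by
  intro d m h hh
  rw [sub_zero, Derivation.smul_apply, hE d m h hh]
  exact Submodule.smul_mem _ _ (Submodule.smul_mem _ _ hh)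

/-- If one point of `X` has a tangent weight, the weights at an isolated source are not all
missing. -/
theorem pos_of_isSource (hX : IsTorusManifold 𝒜) {l : M →+ ℤ} {p : R →ₐ[ℂ] ℂ} {μ : M} {a : ℤ}
    (hs : IsSource 𝒜 l p μ a) {x : R →ₐ[ℂ] ℂ} {ν χ : M} (hx0 : ¬ IsVertex 𝒜 x)
    (hχ : TangentWeight 𝒜 x ν χ) : 0 < a := by
  by_contra ha
  have hno : ∀ ω, ¬ TangentWeight 𝒜 p μ ω := by
    intro ω hω
    have := hs.2.2 ω hω
    omega
  obtain ⟨E, hE⟩ := exists_euler 𝒜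
  obtain ⟨N, hN⟩ := exists_dim hX
  obtain ⟨hfin1, hN1⟩ := hN p hs.1
  obtain ⟨hfin2, hN2⟩ := hN x hx0
  -- dimension at most one at `p`
  have h1 : tangentSpace p ≤ Submodule.span ℂ {p.toLinearMap.comp E.toLinearMap} := by
    intro v hv
    have h2 := H127.mem_span_weight hX hs.1 hs.2.1 hv
    refine (Submodule.span_le.2 ?_) h2
    rintro w ⟨hw1, ω, hw2⟩
    obtain ⟨c, hc⟩ := euler_of_not hw1 hw2 (hno ω) hE
    rw [SetLike.mem_coe, Submodule.mem_span_singleton]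
    refine ⟨c, ?_⟩
    ext h
    rw [hc h]
    rfl
  have h2 : N ≤ 1 := by
    rw [← hN1]
    refine (Submodule.finrank_mono h1).trans ((finrank_span_le_card _).trans ?_)
    rw [Set.toFinset_singleton, Finset.card_singleton]
  -- two independent vectors at `x`
  obtain ⟨v, hv, hw, hc⟩ := hχ
  obtain ⟨m, f, hf, hfx⟩ := (not_isVertex_iff hX.gen x).1 hx0
  have hEt : IsTangent x (x.toLinearMap.comp E.toLinearMap) := by
    intro a b
    change x (E (a * b)) = x a * x (E b) + x b * x (E a)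
    rw [Derivation.leibniz, map_add, smul_eq_mul, smul_eq_mul, map_mul, map_mul]
  have h3 : LinearIndependent ℂ ![(⟨_, hEt⟩ : tangentSpace x), ⟨v, hv⟩] := by
    rw [LinearIndependent.pair_iff]
    intro s t hst
    have hst' : ∀ h, s * x (E h) + t * v h = 0 := by
      intro h
      have := congrArg (fun w : tangentSpace x => (w : R →ₗ[ℂ] ℂ) h) hst
      exact this
    have ht : t = 0 := by
      by_contra ht
      obtain ⟨d, m', h, hh, hne⟩ := hc (-s / t)
      apply hne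
      have := hst' h
      rw [hE d m' h hh, map_smul, smul_eq_mul] at this
      field_simp
      linear_combination this
    refine ⟨?_, ht⟩
    have := hst' f
    rw [ht, zero_mul, add_zero, hE 1 m f hf, map_smul, smul_eq_mul, Nat.cast_one, one_mul] at this
    exact (mul_eq_zero.1 this).resolve_right hfx
  have h4 := h3.fintype_card_le_finrank
  rw [hN2] at h4
  simp at h4
  omega

/-- **Theorem II**, with an ordering of the characters. -/
theorem theoremII_order (hI : TheoremI) (hX : IsTorusManifold 𝒜) (hN : NefOnRationalCurves 𝒜)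
    {Γ : Type} [AddCommGroup Γ] [LinearOrder Γ] [IsOrderedAddMonoid Γ] (w : M →+ Γ)
    (hw : Function.Injective w) {p : R →ₐ[ℂ] ℂ} {μ : M} (hp0 : ¬ IsVertex 𝒜 p)
    (hp : IsFixed 𝒜 p μ) (h1 : ∀ χ, TangentWeight 𝒜 p μ χ → IsExtremal 𝒜 χ)
    (h2 : ∀ x ν, ¬ IsVertex 𝒜 x → IsFixed 𝒜 x ν → ¬ SamePoint 𝒜 p x →
      ∃ χ, TangentWeight 𝒜 x ν χ ∧ IsExtremal 𝒜 χ ∧ w χ < 0) :
    IsHomogeneousManifold 𝒜 := by
  obtain ⟨E, hE⟩ := exists_euler 𝒜
  obtain ⟨N, hdim⟩ := exists_dim hX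
  -- fields of extremal weight
  have hfield : ∀ (x : R →ₐ[ℂ] ℂ) (ν χ : M), ¬ IsVertex 𝒜 x → IsFixed 𝒜 x ν →
      TangentWeight 𝒜 x ν χ → IsExtremal 𝒜 χ → ∀ v, IsTangent x v → HasWeight 𝒜 ν χ v →
      ∃ D : Derivation ℂ R R, IsHField 𝒜 χ D ∧ ∀ h, x (D h) = v h := by
    rintro x ν χ hx0 hx hχ ⟨l, q, ξ, hs⟩ v hv hvw
    exact field_of_extremal hI hX hN hs (pos_of_isSource hX hs hx0 hχ) hx0 hx hv hvw
  -- the point `p`
  obtain ⟨hfinp, hNp⟩ := hdim p hp0
  obtain ⟨r, hr, hpr⟩ := exists_minor (𝒜 := 𝒜) hfinp hNp (by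
    intro v hv
    have h3 := H127.mem_span_weight hX hp0 hp hv
    refine (Submodule.span_le.2 ?_) h3
    rintro u ⟨hu1, χ, hu2⟩
    apply Submodule.subset_span
    by_cases hχ : TangentWeight 𝒜 p μ χ
    · obtain ⟨D, hD1, hD2⟩ := hfield p μ χ hp0 hp hχ (h1 χ hχ) u hu1 hu2
      exact ⟨χ, D, hD1, hD2⟩
    · obtain ⟨c, hc⟩ := euler_of_not hu1 hu2 hχ hE
      refine ⟨0, c • E, isHField_euler hE c, fun h => ?_⟩
      rw [hc h, Derivation.smul_apply, map_smul, smul_eq_mul])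
  -- no other zero of the minors
  have hJ : ∀ z : R →ₐ[ℂ] ℂ, ¬ IsVertex 𝒜 z → ∃ r ∈ minorIdeal 𝒜 N, z r ≠ 0 := by
    intro z hz
    by_contra hcon
    push Not at hcon
    have hhom : ∀ x ∈ minorIdeal 𝒜 N, ∀ i, ((decompose 𝒜 x) i : R) ∈ minorIdeal 𝒜 N :=
      fun x hx i => minorIdeal_isHomogeneous N i hx
    obtain ⟨γ, x, hx0, hxJ, hx1, hx2, ν, hν, f, hf, hxf⟩ :=
      exists_lowest hX w hhom ⟨z, hcon, hz⟩
    have hx : IsFixed 𝒜 x ν := by
      intro d m h hh hne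
      apply hw
      rw [map_nsmul, hν]
      exact hx1 d m h hh hne
    have hsame : ¬ SamePoint 𝒜 p x := by
      rintro ⟨c, hc, hcx⟩
      have h3 : p r = 0 := by
        classical
        rw [← sum_support_decompose 𝒜 r, map_sum]
        apply Finset.sum_eq_zero
        rintro ⟨d, m⟩ _
        have h4 := hcx d m _ (decompose 𝒜 r (d, m)).2
        rw [hxJ _ (hhom r hr (d, m))] at h4
        exact (mul_eq_zero.1 h4.symm).resolve_left (pow_ne_zero d hc)
      exact hpr h3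
    obtain ⟨χ, hχ, hext, hneg⟩ := h2 x ν hx0 hx hsame
    obtain ⟨v, hv, hvw, hc⟩ := id hχ
    obtain ⟨D, hD1, hD2⟩ := hfield x ν χ hx0 hx hχ hext v hv hvw
    obtain ⟨d, m, h, hh, hne⟩ := hc 0
    rw [zero_mul, zero_mul] at hne
    have hm := hvw d m h hh hne
    have hrad : h ∈ (minorIdeal 𝒜 N).radical := by
      by_contra hnr
      have h3 := hx2 d m h hh hnr
      rw [hm, map_add, map_nsmul, hν] at h3
      have h4 : 0 ≤ w χ := by
        by_contra h5
        have h6 : d • γ + w χ < d • γ := by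
          have := add_lt_add_right hneg (d • γ)
          simpa using this
        exact absurd h3 (not_le.2 h6)
      exact absurd hneg (not_lt.2 h4)
    have h3 := eq_zero_of_radical (minorIdeal 𝒜 N) D (fun r hr => minorIdeal_stable hD1 hr) x hxJ
      hrad
    rw [hD2 h] at h3
    exact hne h3
  intro q hq
  obtain ⟨r, hr, hqr⟩ := hJ q hq
  obtain ⟨hfinq, hNq⟩ := hdim q hq
  exact fun v hv => fields_of_minor hfinq hNq.le hr hqr hv

end Vale.Agent.P280.H587
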