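import Vale.Agent.P280.H587.Generic
import Vale.Agent.P280.H587.Main
import Vale.Agent.P280.H939.R3d
import Vale.Agent.P280.H644.ThmI

/-! P280, torus case: Theorem II for a one-parameter group, and the case of isolated fixed points
whose tangent weights are vertices of the convex hull of all tangent weights. -/

namespace Vale.Agent.P280.H587

open DirectSum Vale.Agent.P280.T

section order
variable {r : ℕ}

/-- The characters, ordered by `l` first. -/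
def lexHom (l : (Fin r → ℤ) →+ ℤ) : (Fin r → ℤ) →+ ℤ ×ₗ (Lex (Fin r → ℤ)) where
  toFun m := toLex (l m, toLex m)
  map_zero' := by rw [map_zero]; rfl
  map_add' a b := by rw [map_add]; rfl

theorem lexHom_injective (l : (Fin r → ℤ) →+ ℤ) : Function.Injective (lexHom l) := by
  intro a b hab
  exact congrArg (fun x => ofLex (ofLex x).2) hab

theorem lexHom_neg {l : (Fin r → ℤ) →+ ℤ} {χ : Fin r → ℤ} (h : l χ < 0) : lexHom l χ < 0 := by
  have : toLex (l χ, toLex χ) < toLex ((0 : ℤ), (0 : Lex (Fin r → ℤ))) := by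
    rw [Prod.Lex.toLex_lt_toLex]
    exact Or.inl h
  exact this

variable {R : Type} [CommRing R] [Algebra ℂ R] {𝒜 : ℕ × (Fin r → ℤ) → Submodule ℂ R}
  [GradedAlgebra 𝒜]

/-- **Theorem II.** -/
theorem theoremII (hI : TheoremI) (hX : IsTorusManifold 𝒜) (hN : NefOnRationalCurves 𝒜)
    {p : R →ₐ[ℂ] ℂ} {μ : Fin r → ℤ} (hp0 : ¬ IsVertex 𝒜 p) (hp : IsFixed 𝒜 p μ)
    (h1 : ∀ χ, TangentWeight 𝒜 p μ χ → IsExtremal 𝒜 χ) (l : (Fin r → ℤ) →+ ℤ)
    (h2 : ∀ x ν, ¬ IsVertex 𝒜 x → IsFixed 𝒜 x ν → ¬ SamePoint 𝒜 p x →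
      ∃ χ, TangentWeight 𝒜 x ν χ ∧ IsExtremal 𝒜 χ ∧ l χ < 0) : IsHomogeneousManifold 𝒜 := by
  refine theoremII_order hI hX hN (lexHom l) (lexHom_injective l) hp0 hp h1 ?_
  intro x ν hx0 hx hs
  obtain ⟨χ, h3, h4, h5⟩ := h2 x ν hx0 hx hs
  exact ⟨χ, h3, h4, lexHom_neg h5⟩

end order

section
variable {M : Type} [AddCommGroup M] [DecidableEq M]
variable {R : Type} [CommRing R] [Algebra ℂ R] {𝒜 : ℕ × M → Submodule ℂ R} [GradedAlgebra 𝒜]

/-- A finite set of characters has bounded values. -/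
theorem exists_bound {S : Set M} (hS : S.Finite) (l : M →+ ℤ) :
    ∃ K : ℤ, 0 ≤ K ∧ ∀ a ∈ S, ∀ b ∈ S, |l (a - b)| ≤ K := by
  classical
  refine ⟨∑ a ∈ hS.toFinset, ∑ b ∈ hS.toFinset, |l (a - b)|, ?_, ?_⟩
  · exact Finset.sum_nonneg fun a _ => Finset.sum_nonneg fun b _ => abs_nonneg _
  · intro a ha b hb
    refine le_trans ?_ (Finset.single_le_sum (f := fun a => ∑ b ∈ hS.toFinset, |l (a - b)|)
      (fun a _ => Finset.sum_nonneg fun b _ => abs_nonneg _) (hS.mem_toFinset.2 ha))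
    exact Finset.single_le_sum (f := fun b => |l (a - b)|) (fun b _ => abs_nonneg _)
      (hS.mem_toFinset.2 hb)

/-- A tangent weight which is strictly maximal among all tangent weights for some one-parameter
group is extremal. -/
theorem isExtremal_of_vertex (hX : IsTorusManifold 𝒜)
    (hiso : ∀ x ν, ¬ IsVertex 𝒜 x → IsFixed 𝒜 x ν → ¬ TangentWeight 𝒜 x ν 0)
    (g : M →+ ℤ) (hg : Set.InjOn g (wts 𝒜)) {x : R →ₐ[ℂ] ℂ} {ν χ : M} (hx0 : ¬ IsVertex 𝒜 x)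
    (hx : IsFixed 𝒜 x ν) (hχ : TangentWeight 𝒜 x ν χ) (l : M →+ ℤ)
    (hl : ∀ y ξ ω, ¬ IsVertex 𝒜 y → IsFixed 𝒜 y ξ → TangentWeight 𝒜 y ξ ω → ω ≠ χ →
      l ω < l χ) : IsExtremal 𝒜 χ := by
  obtain ⟨K, hK0, hK⟩ := exists_bound (finite_weights hX) g
  have hK' : ∀ {y : R →ₐ[ℂ] ℂ} {ξ ω : M}, ¬ IsVertex 𝒜 y → IsFixed 𝒜 y ξ →
      TangentWeight 𝒜 y ξ ω → |g ω| ≤ K := by
    intro y ξ ω hy0 hy hω
    obtain ⟨h1, h2⟩ := tangentWeight_mem hX hy0 hy hω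
    have := hK _ h2 _ h1
    rwa [add_sub_cancel_left] at this
  let l' : M →+ ℤ := (2 * K + 1) • l + g
  have hl' : ∀ m, l' m = (2 * K + 1) * l m + g m := fun m => by
    change (2 * K + 1) • l m + g m = _
    rw [smul_eq_mul]
  have hinj : Set.InjOn l' (wts 𝒜) := by
    intro a ha b hb hab
    apply hg ha hb
    have h1 : (2 * K + 1) * l (a - b) + g (a - b) = 0 := by
      have : l' (a - b) = 0 := by rw [map_sub, hab, sub_self]
      rwa [hl'] at this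
    have h2 := abs_le.1 (hK a ha b hb)
    have h3 : l (a - b) = 0 := by
      by_contra hne
      rcases lt_or_gt_of_ne hne with hlt | hgt
      · nlinarith
      · nlinarith
    rw [h3, mul_zero, zero_add, map_sub] at h1
    exact sub_eq_zero.1 h1
  obtain ⟨q, ξ, hq0, hq, hpos, -⟩ := exists_source hX hiso l' hinj
  refine ⟨l', q, ξ, hq0, hq, fun ω hω => ⟨hpos ω hω, ?_⟩⟩
  by_cases hne : ω = χ
  · rw [hne]
  · have h1 := hl q ξ ω hq0 hq hω hne
    have h2 := abs_le.1 (hK' hq0 hq hω)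
    have h3 := abs_le.1 (hK' hx0 hx hχ)
    rw [hl', hl']
    nlinarith

/-- With isolated fixed points, a fixed point other than the lowest one has a negative weight. -/
theorem exists_neg (hX : IsTorusManifold 𝒜)
    (hiso : ∀ x ν, ¬ IsVertex 𝒜 x → IsFixed 𝒜 x ν → ¬ TangentWeight 𝒜 x ν 0)
    (l : M →+ ℤ) (hl : Set.InjOn l (wts 𝒜)) {p : R →ₐ[ℂ] ℂ} {μ : M} (hp0 : ¬ IsVertex 𝒜 p)
    (hp : IsFixed 𝒜 p μ) (hlow : ∀ d m, ∀ h ∈ 𝒜 (d, m), h ≠ 0 → d • l μ ≤ l m)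
    {x : R →ₐ[ℂ] ℂ} {ν : M} (hx0 : ¬ IsVertex 𝒜 x) (hx : IsFixed 𝒜 x ν)
    (hs : ¬ SamePoint 𝒜 p x) : ∃ χ, TangentWeight 𝒜 x ν χ ∧ l χ < 0 := by
  by_contra hcon
  push Not at hcon
  obtain ⟨K, hK0, hK⟩ := exists_bound (finite_weights hX) l
  have hsrc : IsSource 𝒜 l x ν K := by
    refine ⟨hx0, hx, fun χ hχ => ?_⟩
    obtain ⟨h1, h2⟩ := tangentWeight_mem hX hx0 hx hχ
    have h3 := hK _ h2 _ h1
    rw [add_sub_cancel_left] at h3
    refine ⟨?_, (abs_le.1 h3).2⟩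
    refine lt_of_le_of_ne (hcon χ hχ) ?_
    intro h0
    have h4 : l (ν + χ) = l ν := by rw [map_add, ← h0, add_zero]
    have h5 : χ = 0 := add_eq_left.1 (hl h2 h1 h4)
    rw [h5] at hχ
    exact hiso x ν hx0 hx hχ
  have hs' := isSource_co hsrc
  have hX' : IsTorusManifold (co 𝒜 l) := isTorusManifold_co hX
  obtain ⟨f, hf, hxf⟩ := H939.source_s1 hX' hs'
  obtain ⟨h1, h2⟩ := H939.source_s2 hX' hs'
  have hf0 : f ≠ 0 := by
    rintro rfl
    rw [map_zero] at hxf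
    exact zero_ne_one hxf
  have hxf' : x f ≠ 0 := by rw [hxf]; exact one_ne_zero
  have hdata : H644.SourceData (co 𝒜 l) (l ν) f := ⟨hf, hf0, h1, h2 f hf hxf'⟩
  -- the two slopes agree
  have hsl : l μ = l ν := by
    apply le_antisymm
    · obtain ⟨g, hg, hgx⟩ := exists_deg_one_ne hX.gen hx0 hx
      have := hlow 1 ν g hg (fun h => hgx (by rw [h, map_zero]))
      rwa [one_smul] at this
    · obtain ⟨g, hg, hgp⟩ := exists_deg_one_ne hX.gen hp0 hp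
      have := h1 1 (l μ) g (mem_co hg) (fun h => hgp (by rw [h, map_zero]))
      rwa [one_smul] at this
  have hpf : IsFixed (co 𝒜 l) p (l ν) := by
    rw [← hsl]
    exact isFixed_co hp
  obtain ⟨c, hc, hcx⟩ := hdata.same (fun h => hp0 (isVertex_co.1 h)) hpf
    (fun h => hx0 (isVertex_co.1 h)) (isFixed_co hx)
  exact hs ⟨c, hc, fun d m h hh => hcx d (l m) h (mem_co hh)⟩

end

/-- **Corollary A.** A torus acts with isolated fixed points, and each weight at each fixed point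
is a vertex of the convex hull of all these weights: then `X` is homogeneous. -/
theorem corollaryA {r : ℕ} {R : Type} [CommRing R] [Algebra ℂ R]
    {𝒜 : ℕ × (Fin r → ℤ) → Submodule ℂ R} [GradedAlgebra 𝒜] (hI : TheoremI)
    (hX : IsTorusManifold 𝒜) (hN : NefOnRationalCurves 𝒜)
    (hiso : ∀ x ν, ¬ IsVertex 𝒜 x → IsFixed 𝒜 x ν → ¬ TangentWeight 𝒜 x ν 0)
    (hext : ∀ x ν χ, ¬ IsVertex 𝒜 x → IsFixed 𝒜 x ν → TangentWeight 𝒜 x ν χ →
      ∃ l : (Fin r → ℤ) →+ ℤ, ∀ y ξ ω, ¬ IsVertex 𝒜 y → IsFixed 𝒜 y ξ →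
        TangentWeight 𝒜 y ξ ω → ω ≠ χ → l ω < l χ) : IsHomogeneousManifold 𝒜 := by
  obtain ⟨g, hg⟩ := exists_generic (finite_weights hX)
  have hall : ∀ x ν χ, ¬ IsVertex 𝒜 x → IsFixed 𝒜 x ν → TangentWeight 𝒜 x ν χ →
      IsExtremal 𝒜 χ := by
    intro x ν χ hx0 hx hχ
    obtain ⟨l, hl⟩ := hext x ν χ hx0 hx hχ
    exact isExtremal_of_vertex hX hiso g hg hx0 hx hχ l hl
  obtain ⟨p, μ, hp0, hp, -, hlow⟩ := exists_source hX hiso g hg
  refine theoremII hI hX hN hp0 hp (fun χ hχ => hall p μ χ hp0 hp hχ) g ?_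
  intro x ν hx0 hx hs
  obtain ⟨χ, hχ, hneg⟩ := exists_neg hX hiso g hg hp0 hp hlow hx0 hx hs
  exact ⟨χ, hχ, hall x ν χ hx0 hx hχ, hneg⟩

end Vale.Agent.P280.H587
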