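import Vale.Agent.P280.T.Tools

/-! P280, torus case: coarsening of the torus, components of tangent vectors and of vector
fields. -/

namespace Vale.Agent.P280.H587

open DirectSum Vale.Agent.P280.T

section lin
variable {ι R B : Type} [AddMonoid ι] [DecidableEq ι] [CommRing R] [Algebra ℂ R]
variable [AddCommGroup B] [Module ℂ B]

/-- Linear maps from a graded algebra, given by their homogeneous parts. -/
theorem exists_linearMap (𝒜 : ι → Submodule ℂ R) [GradedAlgebra 𝒜] (F : ι → R →ₗ[ℂ] B) :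
    ∃ φ : R →ₗ[ℂ] B, ∀ i, ∀ a ∈ 𝒜 i, φ a = F i a := by
  let G : (⨁ i, 𝒜 i) →ₗ[ℂ] B :=
    DirectSum.toModule ℂ ι B (fun i => (F i).comp (𝒜 i).subtype)
  refine ⟨G.comp (DirectSum.decomposeLinearEquiv 𝒜 : R →ₗ[ℂ] ⨁ i, 𝒜 i), ?_⟩
  intro i a ha
  have h2 : (G.comp (DirectSum.decomposeLinearEquiv 𝒜 : R →ₗ[ℂ] ⨁ i, 𝒜 i)) a =
      G (DirectSum.decompose 𝒜 a) := rfl
  rw [h2, DirectSum.decompose_of_mem _ ha]
  exact DirectSum.toModule_lof (M := fun i => 𝒜 i)
    (φ := fun i => (F i).comp (𝒜 i).subtype) ℂ i (⟨a, ha⟩ : 𝒜 i)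

/-- A bilinear identity holds if it holds on homogeneous elements. -/
theorem bilin_ext (𝒜 : ι → Submodule ℂ R) [GradedAlgebra 𝒜] {F G : R →ₗ[ℂ] R →ₗ[ℂ] B}
    (h : ∀ i j, ∀ a ∈ 𝒜 i, ∀ b ∈ 𝒜 j, F a b = G a b) (a b : R) : F a b = G a b := by
  induction a using DirectSum.Decomposition.inductionOn 𝒜 with
  | zero => simp
  | homogeneous a =>
    induction b using DirectSum.Decomposition.inductionOn 𝒜 with
    | zero => simp
    | homogeneous b => exact h _ _ a a.2 b b.2
    | add b c hb hc => rw [map_add, map_add, hb, hc]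
  | add a c ha hc => rw [map_add, map_add, LinearMap.add_apply, LinearMap.add_apply, ha, hc]

end lin

variable {M : Type} [AddCommGroup M] [DecidableEq M]
variable {R : Type} [CommRing R] [Algebra ℂ R]

section co
variable {K : Type} [AddCommGroup K] [DecidableEq K]

/-- The grading by degree and by the weight for the subtorus `l`. -/
def co (𝒜 : ℕ × M → Submodule ℂ R) (l : M →+ K) : ℕ × K → Submodule ℂ R :=
  coarse 𝒜 (AddMonoidHom.prodMap (AddMonoidHom.id ℕ) l)

noncomputable instance coGraded (𝒜 : ℕ × M → Submodule ℂ R) [GradedAlgebra 𝒜] (l : M →+ K) :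
    GradedAlgebra (co 𝒜 l) :=
  coarseGraded 𝒜 (AddMonoidHom.prodMap (AddMonoidHom.id ℕ) l)

variable {𝒜 : ℕ × M → Submodule ℂ R} {l : M →+ K}

theorem mem_co {d : ℕ} {m : M} {h : R} (hh : h ∈ 𝒜 (d, m)) : h ∈ co 𝒜 l (d, l m) :=
  mem_coarse hh rfl

theorem co_induction {d : ℕ} {k : K} {P : R → Prop} (h0 : P 0)
    (hadd : ∀ a b, P a → P b → P (a + b))
    (hmem : ∀ m, l m = k → ∀ h ∈ 𝒜 (d, m), P h) {x : R} (hx : x ∈ co 𝒜 l (d, k)) : P x := by
  refine coarse_induction (𝒜 := 𝒜) (f := AddMonoidHom.prodMap (AddMonoidHom.id ℕ) l)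
    (k := (d, k)) (P := P) h0 hadd ?_ hx
  rintro ⟨d', m⟩ hi h hh
  have h1 : d' = d := congrArg Prod.fst hi
  have h2 : l m = k := congrArg Prod.snd hi
  subst h1
  exact hmem m h2 h hh

/-- Some homogeneous element for `𝒜` does not vanish if some homogeneous element for the
coarser grading does not. -/
theorem exists_ne_of_co {B : Type} [AddCommGroup B] [Module ℂ B] (v : R →ₗ[ℂ] B) {d : ℕ} {k : K}
    {x : R} (hx : x ∈ co 𝒜 l (d, k)) (hv : v x ≠ 0) : ∃ m, l m = k ∧ ∃ h ∈ 𝒜 (d, m), v h ≠ 0 := by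
  by_contra hcon
  push Not at hcon
  apply hv
  refine co_induction (P := fun x => v x = 0) (map_zero v) (fun a b ha hb => ?_)
    (fun m hm h hh => hcon m hm h hh) hx
  rw [map_add, ha, hb, add_zero]

theorem isVertex_co {p : R →ₐ[ℂ] ℂ} : IsVertex (co 𝒜 l) p ↔ IsVertex 𝒜 p := by
  constructor
  · intro h d m hd x hx
    exact h d (l m) hd x (mem_co hx)
  · intro h d k hd x hx
    by_contra hne
    obtain ⟨m, -, y, hy, hy'⟩ := exists_ne_of_co p.toLinearMap hx hne
    exact hy' (h d m hd y hy)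

theorem isFixed_co {p : R →ₐ[ℂ] ℂ} {μ : M} (hp : IsFixed 𝒜 p μ) : IsFixed (co 𝒜 l) p (l μ) := by
  intro d k x hx hne
  obtain ⟨m, hm, y, hy, hy'⟩ := exists_ne_of_co p.toLinearMap hx hne
  rw [← hm, hp d m y hy hy', map_nsmul]

theorem hasWeight_co {v : R →ₗ[ℂ] ℂ} {μ χ : M} (hv : HasWeight 𝒜 μ χ v) :
    HasWeight (co 𝒜 l) (l μ) (l χ) v := by
  intro d k x hx hne
  obtain ⟨m, hm, y, hy, hy'⟩ := exists_ne_of_co v hx hne
  rw [← hm, hv d m y hy hy', map_add, map_nsmul]

theorem isTorusManifold_co (hX : IsTorusManifold 𝒜) : IsTorusManifold (co 𝒜 l) where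
  finiteType := hX.finiteType
  domain := hX.domain
  normal := hX.normal
  zero := by
    intro k h hh
    refine co_induction (P := fun h => ∃ c : ℂ, h = algebraMap ℂ R c) ⟨0, by simp⟩ ?_
      (fun m _ h hh => hX.zero m h hh) hh
    rintro a b ⟨c, hc⟩ ⟨c', hc'⟩
    exact ⟨c + c', by rw [hc, hc', map_add]⟩
  gen := by
    rw [eq_top_iff, ← hX.gen]
    apply Algebra.adjoin_mono
    rintro h ⟨m, hm⟩
    exact ⟨l m, mem_co hm⟩
  nonempty := by
    obtain ⟨p, hp⟩ := hX.nonempty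
    exact ⟨p, fun h => hp (isVertex_co.1 h)⟩
  smooth := by
    intro p hp P _ hP
    exact hX.smooth p (fun h => hp (isVertex_co.2 h)) P hP

theorem nef_co (hN : NefOnRationalCurves 𝒜) : NefOnRationalCurves (co 𝒜 l) := by
  intro e φ hφ hb a ha v hv
  obtain ⟨δ, h1, h2, h3⟩ := hN e φ (fun d m h hh => hφ d (l m) h (mem_co hh))
    (fun a ha h => hb a ha (isVertex_co.2 h)) a ha v hv
  refine ⟨δ, h1, fun d k h hh => ?_, h3⟩
  exact co_induction (P := fun h => (δ h).IsHomogeneous (d * e))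
    (by rw [map_zero]; exact MvPolynomial.isHomogeneous_zero _ _ _)
    (fun a b ha hb => by rw [map_add]; exact ha.add hb) (fun m _ h hh => h2 d m h hh) hh

end co

section comp
variable {𝒜 : ℕ × M → Submodule ℂ R} [GradedAlgebra 𝒜]

/-- The component of weight `χ` of a tangent vector at a fixed point. -/
theorem exists_component {p : R →ₐ[ℂ] ℂ} {μ : M} (hp : IsFixed 𝒜 p μ) {v : R →ₗ[ℂ] ℂ}
    (hv : IsTangent p v) (χ : M) :
    ∃ v' : R →ₗ[ℂ] ℂ, IsTangent p v' ∧ HasWeight 𝒜 μ χ v' ∧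
      ∀ d m, ∀ h ∈ 𝒜 (d, m), m = d • μ + χ → v' h = v h := by
  obtain ⟨v', hv'⟩ := exists_linearMap 𝒜
    (fun i : ℕ × M => if i.2 = i.1 • μ + χ then v else 0)
  have h1 : ∀ d m, ∀ h ∈ 𝒜 (d, m), m = d • μ + χ → v' h = v h := by
    intro d m h hh hm
    rw [hv' (d, m) h hh]
    simp [hm]
  have h2 : ∀ d m, ∀ h ∈ 𝒜 (d, m), m ≠ d • μ + χ → v' h = 0 := by
    intro d m h hh hm
    rw [hv' (d, m) h hh]
    simp [hm]
  refine ⟨v', ?_, ?_, h1⟩
  · intro a b
    let F : R →ₗ[ℂ] R →ₗ[ℂ] ℂ := (LinearMap.mul ℂ R).compr₂ v'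
    let G : R →ₗ[ℂ] R →ₗ[ℂ] ℂ :=
      (LinearMap.mul ℂ ℂ).compl₁₂ p.toLinearMap v' +
        ((LinearMap.mul ℂ ℂ).compl₁₂ p.toLinearMap v').flip
    have hFG : F a b = G a b := by
      refine bilin_ext 𝒜 (F := F) (G := G) ?_ a b
      rintro ⟨d, m⟩ ⟨d', m'⟩ x hx y hy
      change v' (x * y) = p x * v' y + p y * v' x
      have hxy : x * y ∈ 𝒜 (d + d', m + m') := SetLike.mul_mem_graded hx hy
      by_cases hm : m + m' = (d + d') • μ + χ
      · rw [h1 _ _ _ hxy hm, hv x y]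
        have e1 : p x * v' y = p x * v y := by
          by_cases hpx : p x = 0
          · rw [hpx, zero_mul, zero_mul]
          · have := hp d m x hx hpx
            rw [h1 _ _ _ hy]
            rw [this, add_smul, add_assoc] at hm
            exact add_left_cancel hm
        have e2 : p y * v' x = p y * v x := by
          by_cases hpy : p y = 0
          · rw [hpy, zero_mul, zero_mul]
          · have := hp d' m' y hy hpy
            rw [h1 _ _ _ hx]
            rw [this, add_smul, add_comm m, add_comm (d • μ), add_assoc] at hm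
            exact add_left_cancel hm
        rw [e1, e2]
      · rw [h2 _ _ _ hxy hm]
        have e1 : p x * v' y = 0 := by
          by_cases hpx : p x = 0
          · rw [hpx, zero_mul]
          · have := hp d m x hx hpx
            rw [h2 _ _ _ hy, mul_zero]
            intro h3
            apply hm
            rw [this, h3, add_smul, add_assoc]
        have e2 : p y * v' x = 0 := by
          by_cases hpy : p y = 0
          · rw [hpy, zero_mul]
          · have := hp d' m' y hy hpy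
            rw [h2 _ _ _ hx, mul_zero]
            intro h3
            apply hm
            rw [this, h3, add_smul]
            abel
        rw [e1, e2, add_zero]
    exact hFG
  · intro d m h hh hne
    by_contra hm
    exact hne (h2 d m h hh hm)

/-- A nonzero tangent vector of nonzero weight gives a weight of `T_p X`. -/
theorem tangentWeight_of_ne {p : R →ₐ[ℂ] ℂ} {μ χ : M} (hp : IsFixed 𝒜 p μ) (hχ : χ ≠ 0)
    {v : R →ₗ[ℂ] ℂ} (hv : IsTangent p v) (hw : HasWeight 𝒜 μ χ v) (d : ℕ) (m : M) {h : R}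
    (hh : h ∈ 𝒜 (d, m)) (hne : v h ≠ 0) : TangentWeight 𝒜 p μ χ := by
  refine ⟨v, hv, hw, fun c => ⟨d, m, h, hh, fun h1 => ?_⟩⟩
  have h2 : p h ≠ 0 := by
    intro h2
    rw [h2, mul_zero] at h1
    exact hne h1
  have h3 := hp d m h hh h2
  have h4 := hw d m h hh hne
  rw [h3] at h4
  exact hχ (left_eq_add.1 h4)

theorem isSource_co {l : M →+ ℤ} {p : R →ₐ[ℂ] ℂ} {μ : M} {a : ℤ} (hp : IsSource 𝒜 l p μ a) :
    IsSource (co 𝒜 l) (AddMonoidHom.id ℤ) p (l μ) a := by
  obtain ⟨hp0, hp1, hp2⟩ := hp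
  refine ⟨fun h => hp0 (isVertex_co.1 h), isFixed_co hp1, ?_⟩
  intro k hk
  change 0 < k ∧ k ≤ a
  obtain ⟨v, hv, hw, hc⟩ := hk
  -- the component of `v` at a homogeneous element with nonzero value
  have key : ∀ d m, ∀ h ∈ 𝒜 (d, m), v h ≠ 0 → l (m - d • μ) = k ∧
      (m - d • μ ≠ 0 → TangentWeight 𝒜 p μ (m - d • μ)) := by
    intro d m h hh hne
    constructor
    · have := hw d (l m) h (mem_co hh) hne
      rw [map_sub, map_nsmul, this]
      abel
    · intro hχ
      obtain ⟨v', h1, h2, h3⟩ := exists_component hp1 hv (m - d • μ)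
      refine tangentWeight_of_ne hp1 hχ h1 h2 d m hh ?_
      rw [h3 d m h hh (by abel)]
      exact hne
  by_cases hex : ∃ d m, ∃ h ∈ 𝒜 (d, m), v h ≠ 0 ∧ m - d • μ ≠ 0
  · obtain ⟨d, m, h, hh, hne, hχ⟩ := hex
    obtain ⟨h1, h2⟩ := key d m h hh hne
    rw [← h1]
    exact hp2 _ (h2 hχ)
  · exfalso
    push Not at hex
    have hw0 : HasWeight 𝒜 μ 0 v := by
      intro d m h hh hne
      rw [add_zero]
      exact sub_eq_zero.1 (hex d m h hh hne)
    by_cases h0 : TangentWeight 𝒜 p μ 0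
    · have := (hp2 0 h0).1
      rw [map_zero] at this
      exact lt_irrefl _ this
    · have h1 : ∃ c : ℂ, ∀ d m, ∀ h ∈ 𝒜 (d, m), v h = c * d * p h := by
        by_contra hcon
        push Not at hcon
        exact h0 ⟨v, hv, hw0, fun c => hcon c⟩
      obtain ⟨c, hc'⟩ := h1
      obtain ⟨d, k', x, hx, hne⟩ := hc c
      apply hne
      refine co_induction (P := fun x => v x = c * d * p x) (by simp) ?_
        (fun m _ h hh => hc' d m h hh) hx
      intro a b ha hb
      rw [map_add, map_add, ha, hb]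
      ring

/-- The component of degree zero and weight `- χ` of a derivation. -/
theorem exists_field_component (D : Derivation ℂ R R) (χ : M) :
    ∃ D' : Derivation ℂ R R, (∀ d m, ∀ h ∈ 𝒜 (d, m), D' h ∈ 𝒜 (d, m - χ)) ∧
      ∀ d m, ∀ h ∈ 𝒜 (d, m), D' h = (decompose 𝒜 (D h) (d, m - χ) : R) := by
  obtain ⟨F, hF⟩ := exists_linearMap 𝒜
    (fun i : ℕ × M => (GradedAlgebra.proj 𝒜 (i.1, i.2 - χ)).comp D.toLinearMap)
  have hF' : ∀ d m, ∀ h ∈ 𝒜 (d, m), F h = (decompose 𝒜 (D h) (d, m - χ) : R) := by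
    intro d m h hh
    rw [hF (d, m) h hh]
    rfl
  have hL : ∀ x y : R, F (x * y) = x • F y + y • F x := by
    intro a b
    let F1 : R →ₗ[ℂ] R →ₗ[ℂ] R := (LinearMap.mul ℂ R).compr₂ F
    let G : R →ₗ[ℂ] R →ₗ[ℂ] R :=
      (LinearMap.mul ℂ R).compl₁₂ LinearMap.id F +
        ((LinearMap.mul ℂ R).compl₁₂ LinearMap.id F).flip
    have hFG : F1 a b = G a b := by
      refine bilin_ext 𝒜 (F := F1) (G := G) ?_ a b
      rintro ⟨d, m⟩ ⟨d', m'⟩ x hx y hy
      change F (x * y) = x * F y + y * F x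
      have hxy : x * y ∈ 𝒜 (d + d', m + m') := SetLike.mul_mem_graded hx hy
      rw [hF' _ _ _ hxy, hF' _ _ _ hx, hF' _ _ _ hy, D.leibniz, smul_eq_mul, smul_eq_mul,
        decompose_add, DirectSum.add_apply, Submodule.coe_add]
      have e1 : (d + d', m + m' - χ) = ((d, m) + (d', m' - χ) : ℕ × M) := by
        rw [Prod.mk_add_mk]
        congr 1
        abel
      have e2 : (d + d', m + m' - χ) = ((d', m') + (d, m - χ) : ℕ × M) := by
        rw [Prod.mk_add_mk, add_comm d]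
        congr 1
        abel
      congr 1
      · rw [e1, coe_decompose_mul_add_of_left_mem 𝒜 hx]
      · rw [e2, coe_decompose_mul_add_of_left_mem 𝒜 hy]
    exact hFG
  refine ⟨Derivation.mk' F hL, ?_, ?_⟩
  · intro d m h hh
    change F h ∈ _
    rw [hF' d m h hh]
    exact SetLike.coe_mem _
  · intro d m h hh
    exact hF' d m h hh

end comp

end Vale.Agent.P280.H587
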