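import Vale.Agent.P280.H587.CorC

/-! P280: a `ℂ^*`-action with an isolated source on whose tangent space it acts by homotheties, and
an isolated sink. -/

namespace Vale.Agent.P280.H587

open DirectSum Vale.Agent.P280.T

/-- The lower bound of the weights, for one-parameter groups. -/
def LowerBound : Prop :=
  ∀ (R : Type) [CommRing R] [Algebra ℂ R] (𝒜 : ℕ × ℤ → Submodule ℂ R) [GradedAlgebra 𝒜],
    IsTorusManifold 𝒜 → NefOnRationalCurves 𝒜 → ∀ (p : R →ₐ[ℂ] ℂ) (μ a : ℤ), 0 < a →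
    IsSource 𝒜 (AddMonoidHom.id ℤ) p μ a → ∀ (x : R →ₐ[ℂ] ℂ) (ν : ℤ), ¬ IsVertex 𝒜 x →
    IsFixed 𝒜 x ν → ∀ χ, TangentWeight 𝒜 x ν χ → -a ≤ χ

variable {R : Type} [CommRing R] [Algebra ℂ R] {𝒜 : ℕ × ℤ → Submodule ℂ R} [GradedAlgebra 𝒜]

/-- If all the weights at a fixed point are multiples of `a`, so are all relative weights. -/
theorem dvd_of_fixed (hX : IsTorusManifold 𝒜) {p : R →ₐ[ℂ] ℂ} {μ a : ℤ}
    (hp0 : ¬ IsVertex 𝒜 p) (hp : IsFixed 𝒜 p μ) (h1 : ∀ χ, TangentWeight 𝒜 p μ χ → a ∣ χ) :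
    ∀ d m, ∀ h ∈ 𝒜 (d, m), h ≠ 0 → a ∣ m - d • μ := by
  have := H127.noeth hX
  have := hX.domain
  have hfix := H127.fix_of_isFixed hp
  obtain ⟨n, u, wt, G, hn⟩ := H127.exists_params_T hX hp0 hfix
  have hwt : ∀ i, a ∣ wt i := by
    intro i
    by_cases hi : wt i = 0
    · rw [hi]; exact dvd_zero a
    · exact h1 _ (H127.tangentWeight_of_wt hX hp G hn hi)
  intro d m h hh hne
  by_contra hnd
  apply hne
  have h2 := H127.source hfix G (C := {k | ¬ a ∣ k}) (by simp)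
    (fun w hw i => by
      simp only [Set.mem_setOf_eq] at hw ⊢
      intro h3
      apply hw
      have := dvd_add h3 (hwt i)
      rwa [sub_add_cancel] at this) (w := m - d • μ) hnd
  have h3 : h ∈ coarse 𝒜 (H127.rl (AddMonoidHom.id ℤ) μ) (m - d • μ) :=
    mem_coarse hh (H127.rl_apply _ μ d m)
  rw [h2] at h3
  exact (Submodule.mem_bot ℂ).1 h3

/-- **Corollary B.** A `ℂ^*`-action with an isolated source, where it acts on the tangent space by
homotheties, and with an isolated sink: then `X` is homogeneous. -/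
theorem corollaryB (hI : TheoremI) (hL : LowerBound) (hX : IsTorusManifold 𝒜)
    (hN : NefOnRationalCurves 𝒜) {p : R →ₐ[ℂ] ℂ} {μ a : ℤ}
    (hp : IsSource 𝒜 (AddMonoidHom.id ℤ) p μ a) (h1 : ∀ χ, TangentWeight 𝒜 p μ χ → χ = a)
    {q : R →ₐ[ℂ] ℂ} {ξ a' : ℤ} (hq : IsSource 𝒜 (-AddMonoidHom.id ℤ) q ξ a') :
    IsHomogeneousManifold 𝒜 := by
  have hdvd := dvd_of_fixed hX hp.1 hp.2.1 (a := a) (fun χ hχ => by rw [h1 χ hχ])
  refine theoremII_order hI hX hN (AddMonoidHom.id ℤ) (fun _ _ h => h) hp.1 hp.2.1 ?_ ?_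
  · intro χ hχ
    refine ⟨AddMonoidHom.id ℤ, p, μ, hp.1, hp.2.1, fun ω hω => ?_⟩
    have h2 := hp.2.2 ω hω
    rw [h1 ω hω] at h2 ⊢
    rw [h1 χ hχ]
    exact h2
  · intro x ν hx0 hx hs
    obtain ⟨χ, hχ, hneg⟩ := exists_neg_of_source hX hp hx0 hx hs
    have ha : 0 < a := pos_of_isSource hX hp hx0 hχ
    have hneg' : χ < 0 := hneg
    -- the weight is `- a`
    have h2 : a ∣ χ := by
      obtain ⟨v, hv, hw, hc⟩ := id hχ
      obtain ⟨d, m, h, hh, hne⟩ := hc 0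
      rw [zero_mul, zero_mul] at hne
      have h3 := hdvd d m h hh (fun h0 => hne (by rw [h0, map_zero]))
      rw [hw d m h hh hne] at h3
      obtain ⟨f, hf, hfx⟩ := exists_deg_one_ne hX.gen hx0 hx
      have h4 := hdvd 1 ν f hf (fun h0 => hfx (by rw [h0, map_zero]))
      rw [one_smul] at h4
      have h5 : χ = (d • ν + χ - d • μ) - d • (ν - μ) := by
        rw [smul_sub]; ring
      rw [h5]
      exact dvd_sub h3 (by
        rw [nsmul_eq_mul]
        exact Dvd.dvd.mul_left h4 _)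
    have h3 := hL R 𝒜 hX hN p μ a ha hp x ν hx0 hx χ hχ
    have h4 : χ = -a := by
      obtain ⟨k, hk⟩ := h2
      have h5 : -1 ≤ k := by
        by_contra h
        have : k ≤ -2 := by omega
        nlinarith
      have h6 : k < 0 := by
        by_contra h
        have : 0 ≤ k := by omega
        nlinarith
      have h7 : k = -1 := by omega
      rw [hk, h7]
      ring
    refine ⟨χ, hχ, ?_, hneg⟩
    refine ⟨-AddMonoidHom.id ℤ, q, ξ, hq.1, hq.2.1, fun ω hω => ⟨(hq.2.2 ω hω).1, ?_⟩⟩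
    change -ω ≤ -χ
    have h5 := hL R 𝒜 hX hN p μ a ha hp q ξ hq.1 hq.2.1 ω hω
    rw [h4]
    omega

end Vale.Agent.P280.H587
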