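import Vale.Agent.P280.H127.Local
import Mathlib.RingTheory.Kaehler.Basic
import Mathlib.RingTheory.Etale.Kaehler

/-! P280, X3, row E (α): near a point the differentials are generated by the differentials of
generators of its maximal ideal. -/

open DirectSum

namespace Vale.Agent.P280.H587

open Vale.Agent.P280.H127

section
variable {R : Type} [CommRing R] [Algebra ℂ R] {Λ : Type} [AddCommGroup Λ] [DecidableEq Λ]

theorem omega_gens [IsNoetherianRing R] [Algebra.FiniteType ℂ R] {𝒲 : Λ → Submodule ℂ R}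
    [GradedAlgebra 𝒲] {q : R →ₐ[ℂ] ℂ} {n : ℕ} {u : Fin n → R} {wt : Fin n → Λ}
    (G : Gens 𝒲 q u wt) : ∃ s : R, q s = 1 ∧ ∀ h : R, ∃ r : Fin n → R,
      s • KaehlerDifferential.D ℂ R h = ∑ j, r j • KaehlerDifferential.D ℂ R (u j) := by
  set N : Submodule R (Ω[R⁄ℂ]) :=
    Submodule.span R (Set.range fun j => KaehlerDifferential.D ℂ R (u j)) with hN
  obtain ⟨s0, -, hs1, hs⟩ := G.gen
  have hle : (⊤ : Submodule R (Ω[R⁄ℂ])) ≤ N ⊔ mx q • ⊤ := by
    rw [← KaehlerDifferential.span_range_derivation ℂ R]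
    refine Submodule.span_le.2 ?_
    rintro _ ⟨h, rfl⟩
    rw [KaehlerDifferential.span_range_derivation]
    have hm : h - algebraMap ℂ R (q h) ∈ mx q := by
      refine mem_mx.2 ?_
      rw [map_sub, AlgHom.commutes]
      simp
    obtain ⟨r, hr⟩ := Ideal.mem_span_range_iff_exists_fun.1 (hs _ hm)
    have h1 : s0 • KaehlerDifferential.D ℂ R h ∈ N ⊔ mx q • (⊤ : Submodule R (Ω[R⁄ℂ])) := by
      have h2 : KaehlerDifferential.D ℂ R (s0 * (h - algebraMap ℂ R (q h))) =
          KaehlerDifferential.D ℂ R (∑ i, r i * u i) := by rw [hr]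
      rw [Derivation.leibniz, map_sub, Derivation.map_algebraMap, sub_zero, map_sum] at h2
      have h3 : s0 • KaehlerDifferential.D ℂ R h =
          ∑ i, KaehlerDifferential.D ℂ R (r i * u i) -
            (h - algebraMap ℂ R (q h)) • KaehlerDifferential.D ℂ R s0 := by
        rw [← h2, add_sub_cancel_right]
      rw [h3]
      refine Submodule.sub_mem _ (Submodule.sum_mem _ fun i _ => ?_)
        (Submodule.mem_sup_right (Submodule.smul_mem_smul hm trivial))
      rw [Derivation.leibniz]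
      refine Submodule.add_mem _ (Submodule.mem_sup_left
        (Submodule.smul_mem _ _ (Submodule.subset_span ⟨i, rfl⟩)))
        (Submodule.mem_sup_right (Submodule.smul_mem_smul (mem_mx.2 (G.zero i)) trivial))
    have h4 : (1 - s0) • KaehlerDifferential.D ℂ R h ∈
        N ⊔ mx q • (⊤ : Submodule R (Ω[R⁄ℂ])) := by
      refine Submodule.mem_sup_right (Submodule.smul_mem_smul (mem_mx.2 ?_) trivial)
      rw [map_sub, map_one, hs1, sub_self]
    have h5 := Submodule.add_mem _ h1 h4
    rwa [← add_smul, add_sub_cancel, one_smul] at h5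
  obtain ⟨s, hs, hs'⟩ := Submodule.exists_sub_one_mem_and_smul_le_of_fg_of_le_sup (I := mx q)
    (N := N) (N' := (⊤ : Submodule R (Ω[R⁄ℂ]))) (P := ⊤)
    Module.Finite.fg_top le_rfl hle
  refine ⟨s, ?_, fun h => ?_⟩
  · rw [mem_mx, map_sub, map_one, sub_eq_zero] at hs
    exact hs
  · have h1 : s • KaehlerDifferential.D ℂ R h ∈ N :=
      hs' (Submodule.smul_mem_pointwise_smul _ s _ trivial)
    rw [hN, Submodule.mem_span_range_iff_exists_fun] at h1
    obtain ⟨r, hr⟩ := h1
    exact ⟨r, hr.symm⟩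

end

end Vale.Agent.P280.H587
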