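import Vale.Agent.P280.H93.Const
import Vale.Agent.P280.H127.Wts

/-! P280, X3, row E (β): a local frame of derivations at a regular point. -/

open DirectSum

namespace Vale.Agent.P280.H587

open Vale.Agent.P280.T Vale.Agent.P280.H127 Vale.Agent.P280.H93

section
variable {M : Type} [AddCommGroup M] [DecidableEq M] {R : Type} [CommRing R] [Algebra ℂ R]
  {𝒜 : ℕ × M → Submodule ℂ R} [GradedAlgebra 𝒜]

theorem height_eq (hX : IsTorusManifold 𝒜) (p q : R →ₐ[ℂ] ℂ) :
    (RingHom.ker p).height = (RingHom.ker q).height := by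
  have h1 := hX.domain
  have h2 := hX.finiteType
  obtain ⟨N, hN⟩ := exists_height ℂ R
  rw [hN _ (RingHom.ker_isMaximal_of_surjective p (fun c => ⟨algebraMap ℂ R c, p.commutes c⟩)),
    hN _ (RingHom.ker_isMaximal_of_surjective q (fun c => ⟨algebraMap ℂ R c, q.commutes c⟩))]

/-- **Local frame.** If the differentials of `u` generate, up to the factor `s`, the differentials
of `R`, and all the tangent vectors at one point `p` are values of derivations, then the
coefficients are derivations. -/
theorem exists_frame (hX : IsTorusManifold 𝒜) {p : R →ₐ[ℂ] ℂ} (hp : ¬ IsVertex 𝒜 p)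
    (hall : ∀ v : R →ₗ[ℂ] ℂ, IsTangent p v → ∃ D : Derivation ℂ R R, ∀ h, p (D h) = v h)
    {q : R →ₐ[ℂ] ℂ} {n : ℕ} (hn : (n : ℕ∞) = (mx q).height) {u : Fin n → R} {s : R} (hs : s ≠ 0)
    (r : R → Fin n → R) (hr : ∀ (D : Derivation ℂ R R) (h : R), s * D h = ∑ j, r h j * D (u j)) :
    ∃ F : Fin n → Derivation ℂ R R, (∀ i h, F i h = r h i) ∧
      ∀ i j, F i (u j) = if i = j then s else 0 := by
  classical
  have := hX.domain
  obtain ⟨hfin, hrank⟩ := finrank_tangent hX hp (S := tangentSpace p)
    (fun v => mem_tangentSpace)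
  have hrank' : Module.finrank ℂ (tangentSpace p) = n := by
    have h1 := height_eq hX p q
    have h2 : ((Module.finrank ℂ (tangentSpace p) : ℕ) : ℕ∞) = (n : ℕ∞) := by
      rw [hrank, hn]
      exact h1
    exact_mod_cast h2
  let b := Module.finBasisOfFinrankEq ℂ (tangentSpace p) hrank'
  have hli : LinearIndependent ℂ (fun i => ((b i : tangentSpace p) : R →ₗ[ℂ] ℂ)) :=
    b.linearIndependent.map' (tangentSpace p).subtype (Submodule.ker_subtype _)
  obtain ⟨g, -, hg⟩ := exists_det_ne _ hli Set.univ Submodule.span_univ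
  choose D hD using fun i => hall (b i : R →ₗ[ℂ] ℂ) (mem_tangentSpace.1 (b i).2)
  -- the derivations are independent
  have hdet0 : (Matrix.of fun i j => D i (g j)).det ≠ 0 := by
    intro h0
    apply hg
    have h1 : p ((Matrix.of fun i j => D i (g j)).det) =
        (Matrix.of fun i j => (b i : R →ₗ[ℂ] ℂ) (g j)).det := by
      rw [AlgHom.map_det]
      congr 1
      ext i j
      exact hD i (g j)
    rw [← h1, h0, map_zero]
  set W : Matrix (Fin n) (Fin n) R := Matrix.of fun i j => D i (u j) with hW
  have hWdet : W.det ≠ 0 := by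
    intro h0
    obtain ⟨c, hc0, hc⟩ := Matrix.exists_vecMul_eq_zero_iff.2 h0
    apply hc0
    have h1 : ∀ h, ∑ i, c i * D i h = 0 := by
      intro h
      have h2 : s * ∑ i, c i * D i h = 0 := by
        rw [Finset.mul_sum]
        have h3 : ∀ i, s * (c i * D i h) = ∑ j, r h j * (c i * D i (u j)) := by
          intro i
          have h4 : s * (c i * D i h) = c i * (s * D i h) := by ring
          rw [h4, hr (D i) h, Finset.mul_sum]
          exact Finset.sum_congr rfl fun j _ => by ring
        rw [Finset.sum_congr rfl fun i _ => h3 i, Finset.sum_comm]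
        refine Finset.sum_eq_zero fun j _ => ?_
        rw [← Finset.mul_sum]
        have h5 := congrFun hc j
        rw [Matrix.vecMul, dotProduct] at h5
        simp only [hW, Matrix.of_apply, Pi.zero_apply] at h5
        rw [h5, mul_zero]
      exact (mul_eq_zero.1 h2).resolve_left hs
    by_contra hne
    apply hdet0
    refine Matrix.exists_vecMul_eq_zero_iff.1 ⟨c, hne, ?_⟩
    funext j
    rw [Matrix.vecMul, dotProduct]
    simp only [Matrix.of_apply, Pi.zero_apply]
    exact h1 (g j)
  have key : ∀ i h, ∑ a, W.adjugate i a * (s * D a h) = W.det * r h i := by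
    intro i h
    have h1 : ∀ a, W.adjugate i a * (s * D a h) = ∑ j, (W.adjugate i a * W a j) * r h j := by
      intro a
      rw [hr (D a) h, Finset.mul_sum]
      refine Finset.sum_congr rfl fun j _ => ?_
      simp only [hW, Matrix.of_apply]
      ring
    rw [Finset.sum_congr rfl fun a _ => h1 a, Finset.sum_comm]
    have h2 : ∀ j, ∑ a, (W.adjugate i a * W a j) * r h j = (if i = j then W.det else 0) * r h j := by
      intro j
      rw [← Finset.sum_mul]
      congr 1
      have h3 := congrFun (congrFun (Matrix.adjugate_mul W) i) j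
      rw [Matrix.mul_apply, Matrix.smul_apply, Matrix.one_apply, smul_eq_mul, mul_ite, mul_one,
        mul_zero] at h3
      exact h3
    rw [Finset.sum_congr rfl fun j _ => h2 j]
    simp
  have hru : ∀ i j, r (u j) i = if i = j then s else 0 := by
    intro i j
    apply mul_left_cancel₀ hWdet
    rw [← key i (u j)]
    have h3 := congrFun (congrFun (Matrix.adjugate_mul W) i) j
    rw [Matrix.mul_apply, Matrix.smul_apply, Matrix.one_apply, smul_eq_mul, mul_ite, mul_one,
      mul_zero] at h3
    have h4 : ∑ a, W.adjugate i a * (s * D a (u j)) = s * ∑ a, W.adjugate i a * W a j := by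
      rw [Finset.mul_sum]
      refine Finset.sum_congr rfl fun a _ => ?_
      simp only [hW, Matrix.of_apply]
      ring
    rw [h4, h3]
    by_cases hij : i = j
    · rw [if_pos hij, if_pos hij, mul_comm]
    · rw [if_neg hij, if_neg hij, mul_zero, mul_zero]
  refine ⟨fun i => Derivation.mk' ⟨⟨fun h => r h i, ?_⟩, ?_⟩ ?_, fun i h => rfl, hru⟩
  · intro x y
    apply mul_left_cancel₀ hWdet
    rw [mul_add, ← key, ← key, ← key, ← Finset.sum_add_distrib]
    refine Finset.sum_congr rfl fun a _ => ?_
    rw [map_add]
    ring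
  · intro c x
    change r (c • x) i = c • r x i
    apply mul_left_cancel₀ hWdet
    rw [mul_smul_comm, ← key, ← key, Finset.smul_sum]
    refine Finset.sum_congr rfl fun a _ => ?_
    rw [Derivation.map_smul, mul_smul_comm, mul_smul_comm]
  · intro x y
    change r (x * y) i = x • r y i + y • r x i
    apply mul_left_cancel₀ hWdet
    rw [smul_eq_mul, smul_eq_mul, mul_add, mul_left_comm _ x, mul_left_comm _ y, ← key, ← key,
      ← key, Finset.mul_sum, Finset.mul_sum, ← Finset.sum_add_distrib]
    refine Finset.sum_congr rfl fun a _ => ?_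
    rw [Derivation.leibniz, smul_eq_mul, smul_eq_mul]
    ring

end

end Vale.Agent.P280.H587
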