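import Vale.Agent.P280.H587.Base
import Vale.Agent.P280.T.Tools2

/-! P280, torus case: generic one-parameter groups, and the sources they define when the fixed
points are isolated. -/

namespace Vale.Agent.P280.H587

open DirectSum Vale.Agent.P280.T

section generic
variable {r : ℕ}

/-- The homomorphism `m ↦ ∑ m_i t ^ i`. -/
def powHom (r : ℕ) (t : ℤ) : (Fin r → ℤ) →+ ℤ where
  toFun m := ∑ i, m i * t ^ (i : ℕ)
  map_zero' := by simp
  map_add' a b := by simp [add_mul, Finset.sum_add_distrib]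

/-- The polynomial `∑ m_i X ^ i`. -/
noncomputable def powPoly (m : Fin r → ℤ) : Polynomial ℤ :=
  ∑ i, Polynomial.C (m i) * Polynomial.X ^ (i : ℕ)

theorem eval_powPoly (m : Fin r → ℤ) (t : ℤ) : (powPoly m).eval t = powHom r t m := by
  simp [powPoly, powHom, Polynomial.eval_finset_sum]

theorem powPoly_ne {m : Fin r → ℤ} (hm : m ≠ 0) : powPoly m ≠ 0 := by
  intro h
  apply hm
  funext j
  have h1 := congrArg (fun P => Polynomial.coeff P (j : ℕ)) h
  simp only [powPoly, Polynomial.finset_sum_coeff, Polynomial.coeff_C_mul, Polynomial.coeff_X_pow,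
    Polynomial.coeff_zero, mul_ite, mul_one, mul_zero] at h1
  rw [Finset.sum_eq_single j] at h1
  · simpa using h1
  · intro b _ hb
    rw [if_neg]
    intro h
    exact hb (Fin.ext h.symm)
  · intro h
    exact absurd (Finset.mem_univ j) h

/-- Some homomorphism to `ℤ` is injective on a given finite set. -/
theorem exists_generic {S : Set (Fin r → ℤ)} (hS : S.Finite) :
    ∃ l : (Fin r → ℤ) →+ ℤ, Set.InjOn l S := by
  classical
  have hfin : (⋃ p ∈ (hS.toFinset ×ˢ hS.toFinset).filter (fun p => p.1 ≠ p.2),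
      {t : ℤ | (powPoly (p.1 - p.2)).eval t = 0}).Finite := by
    apply Set.Finite.biUnion (Finset.finite_toSet _)
    intro p hp
    have hne : p.1 ≠ p.2 := (Finset.mem_filter.1 hp).2
    have : (powPoly (p.1 - p.2)) ≠ 0 := powPoly_ne (sub_ne_zero.2 hne)
    exact Polynomial.finite_setOf_isRoot this
  obtain ⟨t, ht⟩ := hfin.infinite_compl.nonempty
  refine ⟨powHom r t, ?_⟩
  intro a ha b hb hab
  by_contra hne
  apply ht
  simp only [Set.mem_iUnion]
  refine ⟨(a, b), Finset.mem_filter.2 ⟨?_, hne⟩, ?_⟩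
  · exact Finset.mem_product.2 ⟨hS.mem_toFinset.2 ha, hS.mem_toFinset.2 hb⟩
  · change (powPoly (a - b)).eval t = 0
    rw [eval_powPoly, map_sub, hab, sub_self]

end generic

variable {M : Type} [AddCommGroup M] [DecidableEq M]
variable {R : Type} [CommRing R] [Algebra ℂ R] {𝒜 : ℕ × M → Submodule ℂ R} [GradedAlgebra 𝒜]

/-- The set of weights of the elements of degree one. -/
def wts (𝒜 : ℕ × M → Submodule ℂ R) : Set M := {m : M | ∃ h ∈ 𝒜 (1, m), h ≠ 0}

/-- Fixed points are recognised in degree one. -/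
theorem isFixed_of_one (hX : IsTorusManifold 𝒜) {x : R →ₐ[ℂ] ℂ} {ν : M}
    (h1 : ∀ m, ∀ g ∈ 𝒜 (1, m), x g ≠ 0 → m = ν) : IsFixed 𝒜 x ν := by
  have key : ∀ d m y, IsProd 𝒜 d m y → x y ≠ 0 → m = d • ν := by
    intro d m y hy
    induction hy with
    | one => intro _; simp
    | @mul d m w' y g hy hg ih =>
      intro hne
      rw [map_mul] at hne
      rw [ih (left_ne_zero_of_mul hne), h1 _ g hg (right_ne_zero_of_mul hne), add_smul, one_smul]
  intro d m h hh hne
  by_contra hm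
  apply hne
  have h2 := mem_span_isProd hX.gen hh
  have h3 : Submodule.span ℂ {y | IsProd 𝒜 d m y} ≤ LinearMap.ker x.toLinearMap := by
    apply Submodule.span_le.2
    intro y hy
    by_contra hy'
    exact hm (key d m y hy hy')
  exact h3 h2

/-- A tangent vector which vanishes in degree one vanishes. -/
theorem tangent_eq_zero (hX : IsTorusManifold 𝒜) {x : R →ₐ[ℂ] ℂ} {v : R →ₗ[ℂ] ℂ}
    (hv : IsTangent x v) (h1 : ∀ m, ∀ g ∈ 𝒜 (1, m), v g = 0) (b : R) : v b = 0 := by
  have hone : v 1 = 0 := by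
    have h := hv 1 1
    rw [mul_one, map_one x, one_mul] at h
    linear_combination -h
  have hb : b ∈ Algebra.adjoin ℂ {h : R | ∃ m : M, h ∈ 𝒜 (1, m)} := by rw [hX.gen]; trivial
  induction hb using Algebra.adjoin_induction with
  | mem y hy =>
    obtain ⟨m, hm⟩ := hy
    exact h1 m y hm
  | algebraMap c => rw [Algebra.algebraMap_eq_smul_one, map_smul, hone, smul_zero]
  | add y z _ _ hy hz => rw [map_add, hy, hz, add_zero]
  | mul y z _ _ hy hz => rw [hv, hy, hz, mul_zero, mul_zero, add_zero]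

/-- The weights of `T_x X` are differences of weights in degree one. -/
theorem tangentWeight_mem (hX : IsTorusManifold 𝒜) {x : R →ₐ[ℂ] ℂ} {ν χ : M}
    (hx0 : ¬ IsVertex 𝒜 x) (hx : IsFixed 𝒜 x ν) (hχ : TangentWeight 𝒜 x ν χ) :
    ν ∈ wts 𝒜 ∧ ν + χ ∈ wts 𝒜 := by
  constructor
  · obtain ⟨f, hf, hne⟩ := exists_deg_one_ne hX.gen hx0 hx
    exact ⟨f, hf, fun h => hne (by rw [h, map_zero])⟩
  · obtain ⟨v, hv, hw, hc⟩ := hχ
    obtain ⟨d, m, h, hh, hne⟩ := hc 0
    rw [zero_mul, zero_mul] at hne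
    by_contra hcon
    apply hne
    apply tangent_eq_zero hX hv
    intro m' g hg
    by_contra hvg
    apply hcon
    have := hw 1 m' g hg hvg
    rw [one_smul] at this
    rw [← this]
    exact ⟨g, hg, fun h => hvg (by rw [h, map_zero])⟩

/-- Isolated fixed points and a generic one-parameter group: the lowest fixed point is an isolated
source. -/
theorem exists_source (hX : IsTorusManifold 𝒜)
    (hiso : ∀ x ν, ¬ IsVertex 𝒜 x → IsFixed 𝒜 x ν → ¬ TangentWeight 𝒜 x ν 0)
    (l : M →+ ℤ) (hl : Set.InjOn l (wts 𝒜)) :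
    ∃ (p : R →ₐ[ℂ] ℂ) (μ : M), ¬ IsVertex 𝒜 p ∧ IsFixed 𝒜 p μ ∧
      (∀ χ, TangentWeight 𝒜 p μ χ → 0 < l χ) ∧
      ∀ d m, ∀ h ∈ 𝒜 (d, m), h ≠ 0 → d • l μ ≤ l m := by
  have hdom := hX.domain
  obtain ⟨γ, x, hx0, -, hx1, hx2, ν, hν, f, hf, hxf⟩ := exists_lowest hX l (I := ⊥)
    (by
      intro x hx i
      rw [Ideal.mem_bot] at hx
      rw [hx, decompose_zero, DirectSum.zero_apply]
      exact Submodule.zero_mem _)
    (by
      obtain ⟨z, hz⟩ := hX.nonempty
      refine ⟨z, ?_, hz⟩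
      intro x hx
      rw [Ideal.mem_bot] at hx
      rw [hx, map_zero])
  have hrad : (⊥ : Ideal R).radical = ⊥ := Ideal.IsPrime.radical Ideal.isPrime_bot
  rw [hrad] at hx2
  have hx2' : ∀ d m, ∀ h ∈ 𝒜 (d, m), h ≠ 0 → d • γ ≤ l m :=
    fun d m h hh hne => hx2 d m h hh (by rwa [Ideal.mem_bot])
  have hx : IsFixed 𝒜 x ν := by
    apply isFixed_of_one hX
    intro m g hg hne
    have h3 := hx1 1 m g hg hne
    rw [one_smul, ← hν] at h3
    exact hl ⟨g, hg, fun h => hne (by rw [h, map_zero])⟩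
      ⟨f, hf, fun h => hxf (by rw [h, map_zero])⟩ h3
  refine ⟨x, ν, hx0, hx, ?_, by rw [hν]; exact hx2'⟩
  intro χ hχ
  have hχ0 : χ ≠ 0 := by
    rintro rfl
    exact hiso x ν hx0 hx hχ
  obtain ⟨hm1, hm2⟩ := tangentWeight_mem hX hx0 hx hχ
  have hne : l χ ≠ 0 := by
    intro h0
    have h4 : l (ν + χ) = l ν := by rw [map_add, h0, add_zero]
    exact hχ0 (add_eq_left.1 (hl hm2 hm1 h4))
  have hge : 0 ≤ l χ := by
    obtain ⟨g, hg, hgne⟩ := hm2
    have h5 := hx2' 1 (ν + χ) g hg hgne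
    rw [one_smul, map_add, hν] at h5
    linarith
  exact lt_of_le_of_ne hge (Ne.symm hne)

end Vale.Agent.P280.H587
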