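import Vale.Agent.P280.H587.Val
import Vale.Agent.P280.H939.OrbA
import Vale.Agent.P280.H587.Main

/-! P280, X4: the span of the orbit of a section is stable under the fields, and contains
coordinates at a point where the fields generate. -/

open DirectSum

namespace Vale.Agent.P280.H587

open Vale.Agent.P280.T Vale.Agent.P280.H939

section
variable {M : Type} [AddCommGroup M] [DecidableEq M] {R : Type} [CommRing R] [Algebra ℂ R]
  {𝒜 : ℕ × M → Submodule ℂ R} [GradedAlgebra 𝒜]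

theorem mem_of_dual {W : Submodule ℂ R} {x : R}
    (h : ∀ θ : R →ₗ[ℂ] ℂ, (∀ w ∈ W, θ w = 0) → θ x = 0) : x ∈ W := by
  by_contra hx
  obtain ⟨θ, h1, h2⟩ := Submodule.exists_dual_map_eq_bot_of_notMem hx inferInstance
  apply h1
  refine h θ fun w hw => ?_
  have h3 : θ w ∈ W.map θ := Submodule.mem_map_of_mem hw
  rw [h2] at h3
  exact (Submodule.mem_bot ℂ).1 h3

theorem orb_mem (f : R) : f ∈ orb 𝒜 f := Submodule.subset_span ⟨1, Subgroup.one_mem _, rfl⟩

/-- the group preserves the span of the orbit -/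
theorem orb_map {f : R} {F : R ≃ₐ[ℂ] R} (hF : F ∈ Gam 𝒜) {h : R} (hh : h ∈ orb 𝒜 f) :
    F h ∈ orb 𝒜 f := by
  unfold orb at hh
  induction hh using Submodule.span_induction with
  | mem h hh =>
    obtain ⟨G, hG, rfl⟩ := hh
    exact Submodule.subset_span ⟨F * G, Subgroup.mul_mem _ hF hG, rfl⟩
  | zero => rw [map_zero]; exact Submodule.zero_mem _
  | add a b _ _ ha hb => rw [map_add]; exact Submodule.add_mem _ ha hb
  | smul c a _ ha => rw [map_smul]; exact Submodule.smul_mem _ _ ha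

theorem orb_map_pow {f : R} {F : R ≃ₐ[ℂ] R} (hF : F ∈ Gam 𝒜) (k : ℕ) {h : R}
    (hh : h ∈ (orb 𝒜 f) ^ k) : F h ∈ (orb 𝒜 f) ^ k := by
  have h1 : ((orb 𝒜 f) ^ k).map (F : R →ₐ[ℂ] R).toLinearMap ≤ (orb 𝒜 f) ^ k := by
    rw [Submodule.map_pow]
    refine pow_le_pow_left' ?_ k
    rintro _ ⟨x, hx, rfl⟩
    exact orb_map hF hx
  exact h1 (Submodule.mem_map_of_mem (f := (F : R →ₐ[ℂ] R).toLinearMap) hh)

/-- the fields preserve the span of the orbit -/
theorem orb_field (hX : IsTorusManifold 𝒜) {f : R} {D : Derivation ℂ R R} (hD : IsField 𝒜 D)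
    {h : R} (hh : h ∈ orb 𝒜 f) : D h ∈ orb 𝒜 f := by
  refine mem_of_dual fun θ hθ => ?_
  have hser : ∀ t : ℂ, HasSum (fun k : ℕ => t ^ k * (((k.factorial : ℂ))⁻¹ * θ ((⇑D)^[k] h)))
      0 := by
    intro t
    have htD : IsField 𝒜 (t • D) := by
      intro d m x hx
      rw [Derivation.smul_apply]
      exact Submodule.smul_mem _ _ (hD d m x hx)
    obtain ⟨G, hG, hGe⟩ := exists_flow (finite_deg hX) htD
    have h1 := hGe h θ
    have h2 : θ (G h) = 0 := hθ _ (orb_map hG hh)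
    rw [h2] at h1
    refine h1.congr_fun ?_
    intro k
    have h3 : ∀ k : ℕ, (⇑((t • D : Derivation ℂ R R) : R →ₗ[ℂ] R))^[k] h =
        t ^ k • (⇑D)^[k] h := by
      intro k
      induction k with
      | zero => simp
      | succ k ih =>
        rw [Function.iterate_succ_apply', ih, Function.iterate_succ_apply' (⇑D)]
        change t • D (t ^ k • (⇑D)^[k] h) = _
        rw [D.map_smul, smul_smul, pow_succ']
    rw [h3, map_smul, smul_eq_mul]
    ring
  have h4 := coeff_zero_of_hasSum hser 1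
  rw [Nat.factorial_one, Nat.cast_one, inv_one, one_mul, Function.iterate_one] at h4
  exact h4

/-- **Separation.** If each nonzero weight vector at the isolated source `p` is detected by a field
applied to `f`, the homogeneous elements of the span of the orbit of `f` separate the tangent
vectors which kill `f`. -/
theorem orb_sep (hX : IsTorusManifold 𝒜) {l0 : M →+ ℤ} {p : R →ₐ[ℂ] ℂ} {μ : M} {a : ℤ}
    (hs : IsSource 𝒜 l0 p μ a) {f : R} (hf : f ∈ 𝒜 (1, μ)) (pf : p f = 1)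
    (hii : ∀ (v : R →ₗ[ℂ] ℂ) (χ : M), IsTangent p v → HasWeight 𝒜 μ χ v → χ ≠ 0 → v ≠ 0 →
      ∃ D : Derivation ℂ R R, (∀ d m, ∀ h ∈ 𝒜 (d, m), D h ∈ 𝒜 (d, m + χ)) ∧ v (D f) ≠ 0)
    {v : R →ₗ[ℂ] ℂ} (hv : IsTangent p v) (hvf : v f = 0)
    (hw : ∀ m, ∀ w ∈ 𝒜 (1, m), w ∈ orb 𝒜 f → v w = 0) : v = 0 := by
  -- the components vanish
  have hcomp : ∀ (χ : M) (v' : R →ₗ[ℂ] ℂ), IsTangent p v' → HasWeight 𝒜 μ χ v' →
      (∀ d m, ∀ h ∈ 𝒜 (d, m), m = d • μ + χ → v' h = v h) → v' = 0 := by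
    intro χ v' hv' hχ hvv
    by_cases h0 : χ = 0
    · subst h0
      by_contra hne
      have h1 : ∃ c : ℂ, ∀ (d : ℕ) (m : M), ∀ h ∈ 𝒜 (d, m), v' h = c * d * p h := by
        by_contra hcon
        push Not at hcon
        have h2 := hs.2.2 0 ⟨v', hv', hχ, hcon⟩
        rw [map_zero] at h2
        exact lt_irrefl _ h2.1
      obtain ⟨c, hc⟩ := h1
      have h2 := hc 1 μ f hf
      rw [pf, hvv 1 μ f hf (by rw [one_smul, add_zero]), hvf, Nat.cast_one, mul_one,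
        mul_one] at h2
      apply hne
      refine linearMap_ext_graded 𝒜 ?_
      rintro ⟨d, m⟩ h hh
      rw [hc d m h hh, ← h2, zero_mul, zero_mul, LinearMap.zero_apply]
    · by_contra hne
      obtain ⟨D, hD, hDv⟩ := hii v' χ hv' hχ h0 hne
      apply hDv
      have hDf : D f ∈ 𝒜 (1, μ + χ) := hD 1 μ f hf
      rw [hvv 1 (μ + χ) _ hDf (by rw [one_smul])]
      refine hw _ _ hDf (orb_field hX ?_ (orb_mem f))
      intro d m h hh
      exact Submodule.mem_iSup_of_mem (m + χ) (hD d m h hh)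
  refine linearMap_ext_graded 𝒜 ?_
  rintro ⟨d, m⟩ h hh
  obtain ⟨v', h1, h2, h3⟩ := exists_component hs.2.1 hv (m - d • μ)
  have h4 := hcomp _ v' h1 h2 h3
  rw [← h3 d m h hh (by abel), h4]

/-- the finite family of coordinates -/
theorem exists_coords (hX : IsTorusManifold 𝒜) {l0 : M →+ ℤ} {p : R →ₐ[ℂ] ℂ} {μ : M} {a : ℤ}
    (hs : IsSource 𝒜 l0 p μ a) {f : R} (hf : f ∈ 𝒜 (1, μ)) (pf : p f = 1)
    (hii : ∀ (v : R →ₗ[ℂ] ℂ) (χ : M), IsTangent p v → HasWeight 𝒜 μ χ v → χ ≠ 0 → v ≠ 0 →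
      ∃ D : Derivation ℂ R R, (∀ d m, ∀ h ∈ 𝒜 (d, m), D h ∈ 𝒜 (d, m + χ)) ∧ v (D f) ≠ 0) :
    ∃ (k : ℕ) (ℓ : Fin k → R) (m : Fin k → M), (∀ j, ℓ j ∈ 𝒜 (1, m j)) ∧
      (∀ j, ℓ j ∈ orb 𝒜 f) ∧
      ∀ v : R →ₗ[ℂ] ℂ, IsTangent p v → v f = 0 → (∀ j, v (ℓ j) = 0) → v = 0 := by
  classical
  have hf1 : f ∈ deg 𝒜 1 := (le_iSup (fun m : M => 𝒜 (1, m)) μ) hf
  set S : Set R := {w | (∃ m, w ∈ 𝒜 (1, m)) ∧ w ∈ orb 𝒜 f} with hS
  have hfg : (Submodule.span ℂ S).FG := by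
    have := finite_deg hX 1
    have hle : Submodule.span ℂ S ≤ deg 𝒜 1 := by
      refine Submodule.span_le.2 fun w hw => ?_
      exact orb_le hX hf1 hw.2
    have := Submodule.finiteDimensional_of_le hle
    exact Module.Finite.iff_fg.1 this
  obtain ⟨s, hsS, hspan⟩ := Submodule.fg_span_iff_fg_span_finset_subset S |>.1 hfg
  have hmem : ∀ j : Fin s.card, ((s.equivFin.symm j : s) : R) ∈ S := fun j => hsS (s.equivFin.symm j).2
  choose m hm using fun j => (hmem j).1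
  refine ⟨s.card, fun j => ((s.equivFin.symm j : s) : R), m, hm, fun j => (hmem j).2, ?_⟩
  intro v hv hvf hvj
  refine orb_sep hX hs hf pf hii hv hvf ?_
  intro m' w hw1 hw2
  have h1 : w ∈ Submodule.span ℂ (s : Set R) := by
    rw [← hspan]
    exact Submodule.subset_span ⟨⟨m', hw1⟩, hw2⟩
  have h2 : Submodule.span ℂ (s : Set R) ≤ LinearMap.ker v := by
    refine Submodule.span_le.2 fun x hx => ?_
    have h3 := hvj (s.equivFin ⟨x, hx⟩)
    simp only [Equiv.symm_apply_apply] at h3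
    exact LinearMap.mem_ker.2 h3
  exact LinearMap.mem_ker.1 (h2 h1)

end

end Vale.Agent.P280.H587
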