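import Vale.Agent.P280.H127.Reg
import Mathlib.RingTheory.KrullDimension.NonZeroDivisors
import Mathlib.RingTheory.KrullDimension.Polynomial
import Mathlib.RingTheory.KrullDimension.Field
import Mathlib.RingTheory.Ideal.Height

/-! P280, X3, row A: the points which tend to a fixed point form an affine space. -/

open DirectSum

namespace Vale.Agent.P280.H587

open Vale.Agent.P280.H127

section
variable {R : Type} [CommRing R] [Algebra ℂ R] {𝒲 : ℤ → Submodule ℂ R} [GradedAlgebra 𝒲]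

/-- the ideal of the minus cell -/
def cellIdeal (𝒲 : ℤ → Submodule ℂ R) (x : R →ₐ[ℂ] ℂ) : Ideal R :=
  Ideal.span ({h | ∃ w : ℤ, 0 < w ∧ h ∈ 𝒲 w} ∪ {h | ∃ h' ∈ 𝒲 0, h = h' - algebraMap ℂ R (x h')})

theorem pos_mem_cell {x : R →ₐ[ℂ] ℂ} {w : ℤ} (hw : 0 < w) {h : R} (hh : h ∈ 𝒲 w) :
    h ∈ cellIdeal 𝒲 x := Ideal.subset_span (Or.inl ⟨w, hw, hh⟩)

theorem sub_mem_cell {x : R →ₐ[ℂ] ℂ} {h : R} (hh : h ∈ 𝒲 0) :
    h - algebraMap ℂ R (x h) ∈ cellIdeal 𝒲 x := Ideal.subset_span (Or.inr ⟨h, hh, rfl⟩)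

theorem cell_le {x : R →ₐ[ℂ] ℂ} (hx : Fix 𝒲 x) : cellIdeal 𝒲 x ≤ mx x := by
  refine Ideal.span_le.2 ?_
  rintro h (⟨w, hw, hh⟩ | ⟨h', -, rfl⟩)
  · exact mem_mx.2 (hx w hw.ne' h hh)
  · refine mem_mx.2 ?_
    rw [map_sub, AlgHom.commutes]
    simp

theorem mk_eq_of_zero {x : R →ₐ[ℂ] ℂ} {h : R} (hh : h ∈ 𝒲 0) :
    Ideal.Quotient.mkₐ ℂ (cellIdeal 𝒲 x) h = algebraMap ℂ _ (x h) := by
  rw [← AlgHom.commutes (Ideal.Quotient.mkₐ ℂ (cellIdeal 𝒲 x))]
  exact Ideal.Quotient.eq.2 (sub_mem_cell hh)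

theorem mk_eq_zero_of_pos {x : R →ₐ[ℂ] ℂ} {w : ℤ} (hw : 0 < w) {h : R} (hh : h ∈ 𝒲 w) :
    Ideal.Quotient.mkₐ ℂ (cellIdeal 𝒲 x) h = 0 :=
  Ideal.Quotient.eq_zero_iff_mem.2 (pos_mem_cell hw hh)

variable {x : R →ₐ[ℂ] ℂ} {n : ℕ} {u : Fin n → R} {wt : Fin n → ℤ}

/-- the coordinates on the cell -/
noncomputable def cellMap (𝒲 : ℤ → Submodule ℂ R) (x : R →ₐ[ℂ] ℂ) (u : Fin n → R)
    (wt : Fin n → ℤ) : MvPolynomial {i : Fin n // wt i < 0} ℂ →ₐ[ℂ] R ⧸ cellIdeal 𝒲 x :=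
  MvPolynomial.aeval fun i => Ideal.Quotient.mkₐ ℂ (cellIdeal 𝒲 x) (u i)

theorem cell_poly (hx : Fix 𝒲 x) (G : Gens 𝒲 x u wt) {a : ℤ} (ha : 0 < a)
    (hwt : ∀ i, wt i < 0 → wt i = -a) (N : ℕ) : ∀ w : ℤ, w ≤ 0 → -w < N → ∀ h ∈ 𝒲 w,
      ∃ P : MvPolynomial {i : Fin n // wt i < 0} ℂ,
        cellMap 𝒲 x u wt P = Ideal.Quotient.mkₐ ℂ (cellIdeal 𝒲 x) h ∧
        ∀ k : ℕ, w = -(k * a) → P.IsHomogeneous k := by
  classical
  induction N with
  | zero =>
    intro w h1 h2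
    exfalso
    simp only [Nat.cast_zero] at h2
    omega
  | succ N ih =>
    intro w h1 h2 h hh
    rcases eq_or_lt_of_le h1 with h0 | hlt
    · subst h0
      refine ⟨MvPolynomial.C (x h), ?_, ?_⟩
      · rw [mk_eq_of_zero hh]
        exact MvPolynomial.aeval_C _ _
      · intro k hk
        have h3 : (k : ℤ) * a = 0 := by omega
        have h4 : k = 0 := by
          rcases mul_eq_zero.1 h3 with h5 | h5
          · exact_mod_cast h5
          · omega
        subst h4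
        exact MvPolynomial.isHomogeneous_C _ _
    · obtain ⟨s, hs0, hs1, hs⟩ := G.gen
      have hhm : h ∈ mx x := mem_mx.2 (hx w hlt.ne h hh)
      have hsh : s * h ∈ 𝒲 w := by
        have := SetLike.mul_mem_graded hs0 hh
        rwa [zero_add] at this
      obtain ⟨r, hr, hsum⟩ := mem_span_hom G.hom (hs h hhm) hsh
      have hmk : Ideal.Quotient.mkₐ ℂ (cellIdeal 𝒲 x) h =
          ∑ i, Ideal.Quotient.mkₐ ℂ (cellIdeal 𝒲 x) (r i * u i) := by
        rw [← map_sum, ← hsum, map_mul, mk_eq_of_zero hs0, hs1, map_one, one_mul]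
      have key : ∀ i, ∃ P : MvPolynomial {i : Fin n // wt i < 0} ℂ,
          cellMap 𝒲 x u wt P = Ideal.Quotient.mkₐ ℂ (cellIdeal 𝒲 x) (r i * u i) ∧
          ∀ k : ℕ, w = -(k * a) → P.IsHomogeneous k := by
        intro i
        have hzero : Ideal.Quotient.mkₐ ℂ (cellIdeal 𝒲 x) (r i * u i) = 0 →
            ∃ P : MvPolynomial {i : Fin n // wt i < 0} ℂ,
          cellMap 𝒲 x u wt P = Ideal.Quotient.mkₐ ℂ (cellIdeal 𝒲 x) (r i * u i) ∧
          ∀ k : ℕ, w = -(k * a) → P.IsHomogeneous k := fun h0 =>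
          ⟨0, by rw [map_zero, h0], fun k _ => MvPolynomial.isHomogeneous_zero _ _ _⟩
        rcases lt_trichotomy (wt i) 0 with hi | hi | hi
        · have hi' := hwt i hi
          have hri := hr i
          rw [hi', sub_neg_eq_add] at hri
          by_cases hpos : 0 < w + a
          · apply hzero
            rw [map_mul, mk_eq_zero_of_pos hpos hri, zero_mul]
          · push Not at hpos
            obtain ⟨P, hP1, hP2⟩ := ih (w + a) hpos (by push_cast at h2; omega) (r i) hri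
            refine ⟨P * MvPolynomial.X ⟨i, hi⟩, ?_, ?_⟩
            · rw [map_mul, map_mul, hP1]
              congr 1
              exact MvPolynomial.aeval_X _ _
            · intro k hk
              obtain ⟨k', rfl⟩ : ∃ k', k = k' + 1 := by
                refine ⟨k - 1, ?_⟩
                have : k ≠ 0 := by
                  rintro rfl
                  simp only [Nat.cast_zero, zero_mul, neg_zero] at hk
                  omega
                omega
              refine (hP2 k' ?_).mul (MvPolynomial.isHomogeneous_X _ _)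
              rw [hk]
              push_cast
              ring
        · apply hzero
          have hu := G.hom i
          rw [hi] at hu
          rw [map_mul, mk_eq_of_zero hu, G.zero i, map_zero, mul_zero]
        · apply hzero
          rw [map_mul, mk_eq_zero_of_pos hi (G.hom i), mul_zero]
      choose P hP1 hP2 using key
      refine ⟨∑ i, P i, ?_, fun k hk => MvPolynomial.IsHomogeneous.sum _ _ _
        fun i _ => hP2 i k hk⟩
      rw [map_sum, hmk]
      exact Finset.sum_congr rfl fun i _ => hP1 i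

theorem cellMap_surj (hx : Fix 𝒲 x) (G : Gens 𝒲 x u wt) {a : ℤ} (ha : 0 < a)
    (hwt : ∀ i, wt i < 0 → wt i = -a) : Function.Surjective (cellMap 𝒲 x u wt) := by
  intro b
  obtain ⟨r, rfl⟩ := Ideal.Quotient.mkₐ_surjective ℂ (cellIdeal 𝒲 x) b
  refine hom_ind 𝒲 (P := fun r => ∃ P, cellMap 𝒲 x u wt P =
    Ideal.Quotient.mkₐ ℂ (cellIdeal 𝒲 x) r) ⟨0, by rw [map_zero, map_zero]⟩ ?_ ?_ r
  · rintro r r' ⟨P, hP⟩ ⟨P', hP'⟩
    exact ⟨P + P', by rw [map_add, map_add, hP, hP']⟩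
  · intro w h hh
    by_cases hw : 0 < w
    · exact ⟨0, by rw [map_zero, mk_eq_zero_of_pos hw hh]⟩
    · push Not at hw
      obtain ⟨P, hP, -⟩ := cell_poly hx G ha hwt ((-w).toNat + 1) w hw (by
        push_cast
        omega) h hh
      exact ⟨P, hP⟩

end

end Vale.Agent.P280.H587
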