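import Vale.Agent.P280.H587.RowA0

/-! P280, X3, row A: the coordinates on the minus cell are algebraically independent. -/

open DirectSum

namespace Vale.Agent.P280.H587

open Vale.Agent.P280.H127

section
variable {R : Type} [CommRing R] [Algebra ℂ R] {𝒲 : ℤ → Submodule ℂ R} [GradedAlgebra 𝒲]
variable {x : R →ₐ[ℂ] ℂ} {n : ℕ} {u : Fin n → R} {wt : Fin n → ℤ}

/-- Locally at the fixed point the ideal of the cell is generated by the parameters of nonnegative
weight. -/
theorem cell_le_of_prime [IsNoetherianRing R] (hx : Fix 𝒲 x) (G : Gens 𝒲 x u wt) {P : Ideal R}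
    (hP : P.IsPrime) (hPx : P ≤ mx x) (hu : ∀ i, 0 ≤ wt i → u i ∈ P) : cellIdeal 𝒲 x ≤ P := by
  have key : ∀ w : ℤ, 0 ≤ w → ∀ b ∈ 𝒲 w, b ∈ mx x → b ∈ P := by
    intro w hw b hb hbm
    obtain ⟨t, ht, h⟩ := lemmaA hx G (C := {w | 0 ≤ w}) (J := {i | 0 ≤ wt i}) (fun w hw i hi => by
      simp only [Set.mem_setOf_eq, not_le] at hw hi ⊢
      constructor
      · linarith
      · intro h; linarith) (w := w) hw hb hbm
    have h1 : Ideal.span (u '' {i | 0 ≤ wt i}) ≤ P := by
      refine Ideal.span_le.2 ?_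
      rintro _ ⟨i, hi, rfl⟩
      exact hu i hi
    rcases hP.mem_or_mem (h1 h) with h3 | h3
    · exfalso
      have := mem_mx.1 (hPx h3)
      rw [ht] at this
      exact one_ne_zero this
    · exact h3
  refine Ideal.span_le.2 ?_
  rintro h (⟨w, hw, hh⟩ | ⟨h', hh', rfl⟩)
  · exact key w hw.le h hh (mem_mx.2 (hx w hw.ne' h hh))
  · refine key 0 le_rfl _ (Submodule.sub_mem _ hh' ?_) ?_
    · exact SetLike.algebraMap_mem_graded 𝒲 _
    · refine mem_mx.2 ?_
      rw [map_sub, AlgHom.commutes]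
      simp

theorem card_le_krullDim [IsNoetherianRing R] (hx : Fix 𝒲 x) (G : Gens 𝒲 x u wt)
    (hn : (n : ℕ∞) ≤ (mx x).height) :
    ((Fintype.card {i : Fin n // wt i < 0} : ℕ) : WithBot ℕ∞) ≤
      ringKrullDim (R ⧸ cellIdeal 𝒲 x) := by
  classical
  set I := cellIdeal 𝒲 x with hI
  set mk := Ideal.Quotient.mk I with hmk
  have hmks : Function.Surjective mk := Ideal.Quotient.mk_surjective
  -- the point of the quotient
  set M : Ideal (R ⧸ I) := (mx x).map mk with hM
  have hker : RingHom.ker mk ≤ mx x := by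
    rw [hmk, Ideal.mk_ker]
    exact cell_le hx
  have hprime : (mx x).IsPrime := RingHom.ker_isPrime _
  have hMp : M.IsPrime := Ideal.map_isPrime_of_surjective hmks hker
  have hMc : M.comap mk = mx x := by
    rw [hM, Ideal.comap_map_of_surjective' mk hmks]
    exact sup_eq_left.2 hker
  obtain ⟨S, hS, hScard⟩ := M.exists_finset_card_eq_height_of_isNoetherianRing
  obtain ⟨g, hg⟩ := hmks.hasRightInverse
  set T : Finset R := S.image g ∪ (Finset.univ.filter fun i => 0 ≤ wt i).image u with hT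
  have hTm : (Ideal.span (T : Set R)) ≤ mx x := by
    refine Ideal.span_le.2 fun y hy => ?_
    rw [hT, Finset.coe_union, Finset.coe_image, Finset.coe_image] at hy
    rcases hy with ⟨b, hb, rfl⟩ | ⟨i, -, rfl⟩
    · rw [← hMc]
      change mk (g b) ∈ M
      rw [hg b]
      exact hS.1.2 (Ideal.subset_span hb)
    · exact mem_mx.2 (G.zero i)
  have hmin : mx x ∈ (Ideal.span (T : Set R)).minimalPrimes := by
    refine ⟨⟨hprime, hTm⟩, ?_⟩
    rintro P ⟨hP, hTP⟩ hPx
    have hIP : I ≤ P := cell_le_of_prime hx G hP hPx fun i hi =>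
      hTP (Ideal.subset_span (by
        rw [hT, Finset.coe_union, Finset.coe_image, Finset.coe_image]
        exact Or.inr ⟨i, by simpa using hi, rfl⟩))
    have hkP : RingHom.ker mk ≤ P := by
      rw [hmk, Ideal.mk_ker]
      exact hIP
    have hPp : (P.map mk).IsPrime := Ideal.map_isPrime_of_surjective hmks hkP
    have h1 : Ideal.span (S : Set (R ⧸ I)) ≤ P.map mk := by
      refine Ideal.span_le.2 fun b hb => ?_
      have h2 : g b ∈ P := hTP (Ideal.subset_span (by
        rw [hT, Finset.coe_union, Finset.coe_image, Finset.coe_image]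
        exact Or.inl ⟨b, hb, rfl⟩))
      have h3 := Ideal.mem_map_of_mem mk h2
      rw [hg b] at h3
      exact h3
    have h2 : M ≤ P.map mk := hS.2 ⟨hPp, h1⟩ (Ideal.map_mono hPx)
    have h3 : (P.map mk).comap mk = P := by
      rw [Ideal.comap_map_of_surjective' mk hmks]
      exact sup_eq_left.2 hkP
    rw [← h3, ← hMc]
    exact Ideal.comap_mono h2
  have h1 := Ideal.height_le_card_of_mem_minimalPrimes_span_finset hmin
  have h2 : T.card ≤ S.card + (Finset.univ.filter fun i => 0 ≤ wt i).card :=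
    (Finset.card_union_le _ _).trans (Nat.add_le_add Finset.card_image_le Finset.card_image_le)
  have h3 : (Finset.univ.filter fun i : Fin n => 0 ≤ wt i).card +
      Fintype.card {i : Fin n // wt i < 0} = n := by
    rw [Fintype.card_subtype]
    have := Finset.card_filter_add_card_filter_not (s := (Finset.univ : Finset (Fin n)))
      (fun i => 0 ≤ wt i)
    simp only [not_le] at this
    rw [this, Finset.card_univ, Fintype.card_fin]
  have h4 : n ≤ T.card := by exact_mod_cast hn.trans h1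
  have h5 : Fintype.card {i : Fin n // wt i < 0} ≤ S.card := by omega
  have h6 : ((Fintype.card {i : Fin n // wt i < 0} : ℕ) : ℕ∞) ≤ M.height := by
    rw [← hScard]
    exact_mod_cast h5
  refine le_trans ?_ (Ideal.height_le_ringKrullDim_of_isPrime (I := M))
  exact_mod_cast h6

theorem cellMap_inj [IsNoetherianRing R] (hx : Fix 𝒲 x) (G : Gens 𝒲 x u wt)
    (hn : (n : ℕ∞) ≤ (mx x).height) {a : ℤ} (ha : 0 < a) (hwt : ∀ i, wt i < 0 → wt i = -a) :
    Function.Injective (cellMap 𝒲 x u wt) := by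
  rw [injective_iff_map_eq_zero]
  intro P hP
  by_contra hne
  have h1 := ringKrullDim_succ_le_of_surjective (cellMap 𝒲 x u wt).toRingHom
    (cellMap_surj hx G ha hwt) (mem_nonZeroDivisors_of_ne_zero hne) hP
  rw [MvPolynomial.ringKrullDim_of_isNoetherianRing, ringKrullDim_eq_zero_of_field, zero_add,
    Nat.card_eq_fintype_card] at h1
  have h2 := card_le_krullDim hx G hn
  have h3 : ringKrullDim (R ⧸ cellIdeal 𝒲 x) + 1 ≤ ringKrullDim (R ⧸ cellIdeal 𝒲 x) :=
    h1.trans h2
  have h4 : ((Fintype.card {i : Fin n // wt i < 0} : ℕ) : WithBot ℕ∞) + 1 ≤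
      (Fintype.card {i : Fin n // wt i < 0} : ℕ) := by
    refine le_trans ?_ h1
    gcongr
  have h5 : Fintype.card {i : Fin n // wt i < 0} + 1 ≤ Fintype.card {i : Fin n // wt i < 0} := by
    exact_mod_cast h4
  omega

/-- **The cell of a fixed point.** -/
theorem exists_cell [IsNoetherianRing R] (hx : Fix 𝒲 x) (G : Gens 𝒲 x u wt)
    (hn : (n : ℕ∞) ≤ (mx x).height) {a : ℤ} (ha : 0 < a) (hwt : ∀ i, wt i < 0 → wt i = -a) :
    ∃ (s : ℕ) (Y : R →ₐ[ℂ] MvPolynomial (Fin s) ℂ), Function.Surjective Y ∧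
      (∀ w : ℤ, 0 < w → ∀ h ∈ 𝒲 w, Y h = 0) ∧ (∀ h ∈ 𝒲 0, Y h = MvPolynomial.C (x h)) ∧
      (∀ (w : ℤ) (k : ℕ), w = -(k * a) → ∀ h ∈ 𝒲 w, (Y h).IsHomogeneous k) ∧
      ∀ h, Y h = 0 → h ∈ cellIdeal 𝒲 x := by
  classical
  set e := AlgEquiv.ofBijective (cellMap 𝒲 x u wt)
    ⟨cellMap_inj hx G hn ha hwt, cellMap_surj hx G ha hwt⟩ with he
  set ρ := MvPolynomial.renameEquiv ℂ (Fintype.equivFin {i : Fin n // wt i < 0}) with hρ
  set mk := Ideal.Quotient.mkₐ ℂ (cellIdeal 𝒲 x) with hmk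
  have hes : ∀ P b, cellMap 𝒲 x u wt P = b → e.symm b = P := by
    intro P b h
    rw [← h]
    exact e.symm_apply_apply P
  refine ⟨_, (ρ.toAlgHom.comp e.symm.toAlgHom).comp mk, ?_, ?_, ?_, ?_, ?_⟩
  · exact (ρ.surjective.comp e.symm.surjective).comp (Ideal.Quotient.mkₐ_surjective ℂ _)
  · intro w hw h hh
    change ρ (e.symm (mk h)) = 0
    rw [hmk, mk_eq_zero_of_pos hw hh, map_zero, map_zero]
  · intro h hh
    change ρ (e.symm (mk h)) = _
    rw [hmk, mk_eq_of_zero hh, AlgEquiv.commutes, AlgEquiv.commutes]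
    rfl
  · intro w k hw h hh
    have hw0 : w ≤ 0 := by
      rw [hw]
      have : 0 ≤ (k : ℤ) * a := mul_nonneg (Nat.cast_nonneg k) ha.le
      omega
    obtain ⟨P, hP1, hP2⟩ := cell_poly hx G ha hwt ((-w).toNat + 1) w hw0 (by
      push_cast
      omega) h hh
    change (ρ (e.symm (mk h))).IsHomogeneous k
    rw [hes P _ hP1]
    exact (hP2 k hw).rename_isHomogeneous
  · intro h hh
    have h1 : ρ (e.symm (mk h)) = 0 := hh
    rw [map_eq_zero_iff _ ρ.injective, map_eq_zero_iff _ e.symm.injective] at h1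
    exact Ideal.Quotient.eq_zero_iff_mem.1 h1

end

end Vale.Agent.P280.H587
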