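import Vale.Agent.P280.H939.Fin2
import Vale.Agent.P280.T.Tools2
import Mathlib.RingTheory.Valuation.LocalSubring

/-! P280, X4: the orbit of a section without common zeros (a valuation argument). -/

open DirectSum

namespace Vale.Agent.P280.H587

open Vale.Agent.P280.T Vale.Agent.P280.H939

section
variable {R : Type} [CommRing R] [Algebra ℂ R]

/-- a valuation centered at a point -/
theorem exists_val [IsDomain R] (x : R →ₐ[ℂ] ℂ) :
    ∃ (A : ValuationSubring (FractionRing R)),
      (∀ a : R, x a = 0 → A.valuation (algebraMap R (FractionRing R) a) < 1) ∧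
      (∀ a : R, x a ≠ 0 → A.valuation (algebraMap R (FractionRing R) a) = 1) := by
  set P : Ideal R := RingHom.ker x with hP
  have hPp : P.IsPrime := RingHom.ker_isPrime _
  set g : R →+* FractionRing R := algebraMap R (FractionRing R) with hg
  have hu : ∀ y : P.primeCompl, IsUnit (g y) := by
    intro y
    refine IsUnit.mk0 _ ?_
    intro h0
    have h1 : (y : R) = 0 := (IsFractionRing.injective R (FractionRing R)) (by rw [map_zero]; exact h0)
    apply y.2
    rw [h1]
    exact P.zero_mem
  set φ : Localization.AtPrime P →+* FractionRing R :=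
    IsLocalization.lift (M := P.primeCompl) hu with hφ
  obtain ⟨A, hA, hloc⟩ := IsLocalRing.exists_factor_valuationRing φ
  have hφa : ∀ a : R, φ (algebraMap R _ a) = g a := fun a => IsLocalization.lift_eq hu a
  refine ⟨A, fun a ha => ?_, fun a ha => ?_⟩
  · have hmem : g a ∈ A := by rw [← hφa]; exact hA _
    have hnu : ¬ IsUnit (algebraMap R (Localization.AtPrime P) a) := by
      intro h
      exact (IsLocalization.AtPrime.isUnit_to_map_iff (Localization.AtPrime P) P a).1 h ha
    have h1 : ¬ IsUnit (⟨g a, hmem⟩ : A) := by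
      intro h
      apply hnu
      apply hloc.map_nonunit
      have e : (φ.codRestrict A.toSubring hA) (algebraMap R (Localization.AtPrime P) a) =
          (⟨g a, hmem⟩ : A) := Subtype.ext (hφa a)
      rw [e]
      exact h
    exact (A.valuation_lt_one_iff ⟨g a, hmem⟩).1 ((IsLocalRing.mem_maximalIdeal _).2 h1)
  · have hmem : g a ∈ A := by rw [← hφa]; exact hA _
    have hu1 : IsUnit (algebraMap R (Localization.AtPrime P) a) :=
      (IsLocalization.AtPrime.isUnit_to_map_iff (Localization.AtPrime P) P a).2 ha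
    have h1 : IsUnit (⟨g a, hmem⟩ : A) := by
      have h2 := hu1.map (φ.codRestrict A.toSubring hA)
      have e : (φ.codRestrict A.toSubring hA) (algebraMap R (Localization.AtPrime P) a) =
          (⟨g a, hmem⟩ : A) := Subtype.ext (hφa a)
      rwa [e] at h2
    exact (A.valuation_eq_one_iff ⟨g a, hmem⟩).1 h1

/-- **Integrality.** `W` is spanned by a set `S` of elements `w` with `w ^ N g ∈ W ^ (N + 1)`; then
`g` vanishes at the common zeros of `W`. -/
theorem eq_zero_of_span [IsDomain R] (x : R →ₐ[ℂ] ℂ) {S : Set R} {N : ℕ} {g : R}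
    (hfg : (Submodule.span ℂ S).FG) (hne : ∃ w ∈ S, w ≠ 0)
    (h : ∀ w ∈ S, w ^ N * g ∈ (Submodule.span ℂ S) ^ (N + 1)) (hx : ∀ w ∈ S, x w = 0) :
    x g = 0 := by
  classical
  by_contra hg
  obtain ⟨A, hA1, hA2⟩ := exists_val x
  set v : R → _ := fun a => A.valuation (algebraMap R (FractionRing R) a) with hv
  obtain ⟨s, hs, hspan⟩ := Submodule.fg_span_iff_fg_span_finset_subset S |>.1 hfg
  obtain ⟨w1, hw1, hw10⟩ := hne
  have hsne : s.Nonempty := by
    rw [Finset.nonempty_iff_ne_empty]
    rintro rfl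
    have h1 : w1 ∈ Submodule.span ℂ S := Submodule.subset_span hw1
    rw [hspan, Finset.coe_empty, Submodule.span_empty, Submodule.mem_bot] at h1
    exact hw10 h1
  obtain ⟨w0, hw0, hmax⟩ := s.exists_max_image v hsne
  have hle : ∀ w ∈ Submodule.span ℂ S, v w ≤ v w0 := by
    intro w hw
    rw [hspan] at hw
    induction hw using Submodule.span_induction with
    | mem w hw => exact hmax w hw
    | zero =>
      simp only [hv, map_zero]
      exact zero_le'
    | add a b _ _ ha hb =>
      simp only [hv] at ha hb ⊢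
      rw [map_add]
      exact (A.valuation.map_add _ _).trans (max_le ha hb)
    | smul c a _ ha =>
      by_cases hc : c = 0
      · rw [hc, zero_smul]
        simp only [hv, map_zero]
        exact zero_le'
      · have h1 : v (algebraMap ℂ R c) = 1 := hA2 _ (by rw [AlgHom.commutes]; simpa using hc)
        simp only [hv] at h1 ha ⊢
        rw [Algebra.smul_def, map_mul, map_mul, h1, one_mul]
        exact ha
  have hpow : ∀ k : ℕ, ∀ y ∈ (Submodule.span ℂ S) ^ k, v y ≤ v w0 ^ k := by
    intro k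
    induction k with
    | zero =>
      intro y hy
      rw [pow_zero] at hy ⊢
      obtain ⟨c, rfl⟩ := Submodule.mem_one.1 hy
      by_cases hc : c = 0
      · rw [hc]
        simp only [hv, map_zero]
        exact zero_le'
      · exact (hA2 _ (by rw [AlgHom.commutes]; simpa using hc)).le
    | succ k ih =>
      intro y hy
      rw [pow_succ] at hy
      induction hy using Submodule.mul_induction_on' with
      | mem_mul_mem a ha b hb =>
        have h1 := ih a ha
        have h2 := hle b hb
        simp only [hv] at h1 h2 ⊢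
        rw [map_mul, map_mul, pow_succ]
        exact mul_le_mul' h1 h2
      | add a _ b _ ha hb =>
        simp only [hv] at ha hb ⊢
        rw [map_add]
        exact (A.valuation.map_add _ _).trans (max_le ha hb)
  have hw0S : w0 ∈ S := hs hw0
  have h1 := hpow _ _ (h w0 hw0S)
  have hg1 : v g = 1 := hA2 g hg
  have hlt : v w0 < 1 := hA1 w0 (hx w0 hw0S)
  have hpos : 0 < v w0 := by
    have h2 : v w1 ≤ v w0 := hle w1 (Submodule.subset_span hw1)
    refine lt_of_lt_of_le ?_ h2
    simp only [hv]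
    rw [zero_lt_iff]
    intro h3
    rw [map_eq_zero] at h3
    exact hw10 ((IsFractionRing.injective R (FractionRing R)) (by rw [map_zero]; exact h3))
  have h2 : v (w0 ^ N * g) = v w0 ^ N := by
    simp only [hv] at hg1 ⊢
    rw [map_mul, map_mul, map_pow, map_pow, hg1, mul_one]
  rw [h2, pow_succ] at h1
  have h3 : v w0 ^ N * v w0 < v w0 ^ N * 1 := by
    refine (mul_lt_mul_iff_right₀ ?_).2 hlt
    exact pow_pos hpos N
  rw [mul_one] at h3
  exact absurd h1 (not_le.2 h3)

end

section
variable {M : Type} [AddCommGroup M] [DecidableEq M] {R : Type} [CommRing R] [Algebra ℂ R]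
  {𝒜 : ℕ × M → Submodule ℂ R} [GradedAlgebra 𝒜]

/-- the span of the orbit of `f` -/
def orb (𝒜 : ℕ × M → Submodule ℂ R) (f : R) : Submodule ℂ R :=
  Submodule.span ℂ {h | ∃ F ∈ Gam 𝒜, h = F f}

theorem orb_le (hX : IsTorusManifold 𝒜) {f : R} (hf : f ∈ deg 𝒜 1) : orb 𝒜 f ≤ deg 𝒜 1 := by
  refine Submodule.span_le.2 ?_
  rintro h ⟨F, hF, rfl⟩
  exact (Gam.graded (finite_deg hX) hF).1 1 f hf

theorem orb_fg (hX : IsTorusManifold 𝒜) {f : R} (hf : f ∈ deg 𝒜 1) : (orb 𝒜 f).FG := by
  have := finite_deg hX 1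
  have := Submodule.finiteDimensional_of_le (orb_le hX hf)
  exact Module.Finite.iff_fg.1 this

/-- **Every non-vertex is moved into `{f ≠ 0}` by the group of flows.** -/
theorem exists_move (hX : IsTorusManifold 𝒜) {f : R} (hf : f ∈ deg 𝒜 1) (hf0 : f ≠ 0) {N : ℕ}
    (hN : ∀ F ∈ Gam 𝒜, ∀ g ∈ deg 𝒜 1, (F f) ^ N * g ∈ (orb 𝒜 f) ^ (N + 1))
    {x : R →ₐ[ℂ] ℂ} (hx : ¬ IsVertex 𝒜 x) : ∃ F ∈ Gam 𝒜, x (F f) ≠ 0 := by
  have := hX.domain
  by_contra hcon
  push Not at hcon
  obtain ⟨m, g, hg, hxg⟩ := (not_isVertex_iff hX.gen x).mp hx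
  apply hxg
  refine eq_zero_of_span x (S := {h | ∃ F ∈ Gam 𝒜, h = F f}) (N := N) (orb_fg hX hf)
    ⟨f, ⟨1, Subgroup.one_mem _, rfl⟩, hf0⟩ ?_ ?_
  · rintro w ⟨F, hF, rfl⟩
    exact hN F hF g ((le_iSup (fun m : M => 𝒜 (1, m)) m) hg)
  · rintro w ⟨F, hF, rfl⟩
    exact hcon F hF

end

end Vale.Agent.P280.H587
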